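import Crest.Agent.X212.Mol27.Ex
import Crest.Agent.X212.Sm10.Defs

/-!
# X212 / Mol27 (helper27): realisations of order complexes give barycentric coordinates
-/

set_option autoImplicit false
set_option linter.unusedSectionVars false

open Set Filter Topology Function Metric
open scoped ContDiff NNReal
open Crest.Agent.X212.Sm10

noncomputable section

namespace Crest.Agent.X212.Mol27

/-- a continuous map which is Lipschitz on each of finitely many closed sets covering a convex set
is Lipschitz -/
theorem lip_of_cover {E F ι : Type*} [NormedAddCommGroup E] [NormedSpace ℝ E] [NormedAddCommGroup F]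
    [Finite ι] {f : E → F} {U : Set E} (hU : Convex ℝ U) (hf : ContinuousOn f U) {C : ι → Set E}
    (hC : ∀ i, IsClosed (C i)) (hcov : U ⊆ ⋃ i, C i) {K : ℝ≥0}
    (hK : ∀ i, LipschitzOnWith K f (C i ∩ U)) : LipschitzOnWith K f U := by
  refine LipschitzOnWith.of_dist_le_mul fun y hy x hx => ?_
  set g : ℝ → E := fun t => x + t • (y - x) with hg
  have gc : Continuous g := by fun_prop
  have gU : ∀ t ∈ Icc (0 : ℝ) 1, g t ∈ U := fun t ht => hU.add_smul_sub_mem hx hy ht
  have gd : ∀ s t : ℝ, s ≤ t → dist (g t) (g s) = (t - s) * dist y x := fun s t h => by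
    rw [dist_eq_norm, show g t - g s = (t - s) • (y - x) by simp only [hg, sub_smul]; abel,
      norm_smul, Real.norm_of_nonneg (sub_nonneg.2 h), dist_eq_norm]
  have key : (1 : ℝ) ∈ {t : ℝ | dist (f (g t)) (f x) ≤ K * (t * dist y x)} := by
    refine IsClosed.mem_of_ge_of_forall_exists_gt ?_ (by simp [hg]) zero_le_one ?_
    · rw [inter_comm]
      exact isClosed_Icc.isClosed_le 
        (continuous_dist.comp_continuousOn
          ((hf.comp gc.continuousOn gU).prodMk (continuousOn_const (c := f x))))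
        (by fun_prop : Continuous fun t : ℝ => (K : ℝ) * (t * dist y x)).continuousOn
    · rintro t ⟨ht, ht0, ht1⟩
      have h1 : t ∈ closure (⋃ i, g ⁻¹' C i ∩ Ioc t 1) := by
        refine closure_mono (s := Ioc t 1) (fun s hs => ?_) (by rw [closure_Ioc ht1.ne]; exact ⟨le_rfl, ht1.le⟩)
        obtain ⟨i, hi⟩ := mem_iUnion.1 (hcov (gU s ⟨ht0.trans hs.1.le, hs.2⟩))
        exact mem_iUnion.2 ⟨i, hi, hs⟩
      rw [closure_iUnion_of_finite] at h1
      obtain ⟨i, hi⟩ := mem_iUnion.1 h1
      obtain ⟨s, hs1, hs2⟩ := closure_nonempty_iff.1 ⟨t, hi⟩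
      have h2 : g t ∈ C i :=
        ((hC i).preimage gc).closure_subset (closure_mono inter_subset_left hi)
      have h3 := (hK i).dist_le_mul _ ⟨hs1, gU s ⟨ht0.trans hs2.1.le, hs2.2⟩⟩ _ ⟨h2, gU t ⟨ht0, ht1.le⟩⟩
      refine ⟨s, ?_, hs2⟩
      have h4 := dist_triangle (f (g s)) (f (g t)) (f x)
      rw [gd t s hs2.1.le] at h3
      have h5 : dist (f (g t)) (f x) ≤ K * (t * dist y x) := ht
      show dist (f (g s)) (f x) ≤ K * (s * dist y x)
      nlinarith
  simpa [hg] using key

variable {P : Type} [PartialOrder P] [Fintype P] [DecidableEq P] {E : Type} [NormedAddCommGroup E]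
  [NormedSpace ℝ E] [FiniteDimensional ℝ E]

/-- the coordinates are Lipschitz on convex subsets -/
theorem exists_lip (R : Real P E) :
    ∃ K : ℝ≥0, ∀ U, Convex ℝ U → U ⊆ R.B → LipschitzOnWith K R.wt U := by
  classical
  have h := fun c : {c : Set P // IsChain (· ≤ ·) c} => R.exists_aff c.2
  choose L b _ hL using h
  refine ⟨Finset.univ.sup fun c => ‖L c‖₊, fun U hU hB => ?_⟩
  refine lip_of_cover hU (R.continuousOn_wt.mono hB)
    (C := fun c : {c : Set P // IsChain (· ≤ ·) c} => R.spx c.1)
    (fun c => (R.isCompact_spx c.1).isClosed) (fun p hp => mem_iUnion.2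
      ⟨⟨_, (Real.wt_mem (hB hp)).chain⟩, Real.mem_spx_support (hB hp)⟩) fun c => ?_
  refine LipschitzOnWith.of_dist_le_mul fun p hp q hq => ?_
  rw [hL c p hp.1, hL c q hq.1, dist_add_right]
  refine ((L c).lipschitz.dist_le_mul p q).trans (mul_le_mul_of_nonneg_right ?_ dist_nonneg)
  exact_mod_cast Finset.le_sup (f := fun c => ‖L c‖₊) (Finset.mem_univ c)

theorem pt_eq_cmb (x : P → E) (μ : P → ℝ) : pt x μ = cmb x μ := rfl

/-- the barycentric coordinates of a realisation, on the interior -/
def bary (R : Real P E) : Bary E P where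
  x := R.x
  faces := {c | IsChain (· ≤ ·) (c : Set P)}
  U := interior R.B
  lam := R.wt
  isOpen := isOpen_interior
  lip := fun y hy => by
    obtain ⟨K, hK⟩ := exists_lip R
    obtain ⟨r, hr, h⟩ := Metric.isOpen_iff.1 isOpen_interior y hy
    exact ⟨K, ball y r, mem_nhdsWithin_of_mem_nhds (ball_mem_nhds y hr),
      hK _ (convex_ball y r) (h.trans interior_subset)⟩
  car := fun y hy => by
    have h := Real.wt_mem (interior_subset hy)
    refine ⟨Finset.univ.filter fun s => R.wt y s ≠ 0, ?_, h.nonneg, h.sum, fun s hs => by simpa using hs⟩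
    refine h.chain.mono fun s hs => ?_
    simpa using hs
  pos := fun y hy => Real.cmb_wt (interior_subset hy)
  uniq := fun σ hσ μ hμ _ => Real.wt_cmb (IsWt.mk' hσ hμ.1 hμ.2.1 fun s hs => hμ.2.2 s hs)

@[simp] theorem bary_x (R : Real P E) : (bary R).x = R.x := rfl
@[simp] theorem bary_lam (R : Real P E) : (bary R).lam = R.wt := rfl
@[simp] theorem bary_U (R : Real P E) : (bary R).U = interior R.B := rfl
theorem mem_bary_faces (R : Real P E) {c : Finset P} :
    c ∈ (bary R).faces ↔ IsChain (· ≤ ·) (c : Set P) := Iff.rfl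

end Crest.Agent.X212.Mol27
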