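import Crest.Agent.X212.Mol27.Both
import Crest.Agent.X212.Hel40.Bas

/-!
# X212 / Mol27 (helper27): a combinatorial hierarchy is a chain of smooth stages

* `Cht L v ι V` : the chart `ι` carries `v` to `V`;  `Stg.pre`, `Stg.cd` : one stage;
* `chain`, `chain_start` : the chain;  `last` : the last stage for a field changed on the plateau.
-/

set_option autoImplicit false
set_option linter.unusedSectionVars false

open Set Filter Topology Function Metric Classical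
open scoped ContDiff NNReal Real Manifold
open Crest.Agent.X212.Sm10 Crest.Agent.X212.Hp13 Crest.Agent.X212.Alg36
open Crest.Agent.X212.Dr59 Crest.Agent.X212.Hel40
open Crest.Agent.X212.Sep15 (EE CM)

noncomputable section

namespace Crest.Agent.X212.Mol27

section gen

variable {E : Type} [NormedAddCommGroup E] [NormedSpace ℝ E]
  {P Q : Type} [PartialOrder P] [Fintype P] [PartialOrder Q] [Fintype Q]
  {A : Set P} {B : Set Q} {pr : Q → P} {z : P → P → ℤ} {δ a0 a c α : ℝ} {L : LC E A δ}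
  {L' : LC E B δ} {tp tn : E → ℝ} {y : E}

theorem LC.base_fld' [FiniteDimensional ℝ E] {R : Real P E} {W : Set E} (M : Mol (bary R) W δ)
    (hδ : 0 < δ) (hs : Fintype.card P * δ ≤ 1 / 100) (hA : A.OrdConnected) (hW : IsOpen W)
    (hB : W ⊆ interior R.B) (hK : ∀ ν, IsWt ν → wS Aᶜ ν ≤ 1 / 6 → pt R.x ν ∈ W) {c : P → P → ℝ}
    (hc : ∀ s t, 0 < c s t) : (LC.base M hδ hs hA hW hB hK).Fld (M.fld c) := fun y _ =>
  ⟨rate c δ (M.Λ y), rate_nonneg (fun s t => (hc s t).le) hδ _,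
    fun _ _ h => ⟨(rate_ne hδ h).1, (rate_ne hδ h).2.2⟩,
    fun _ _ h hs ht => rate_pos hδ h (hc _ _) hs ht, by
      simp only [Mol.fld, upV, pt_sum, pt_smul, pt_sub, pt_e]
      rfl⟩

variable (L tp tn) in
/-- the plateau -/
def MM : Set E := {y | y ∈ L.U ∧ tp y = 0 ∧ tn y = 0}

theorem LC.O_mono (h : a ≤ c) : L.O a ⊆ L.O c := fun _ k => ⟨k.1, k.2.1.trans_le h, k.2.2.trans_le h⟩

theorem Rel.O_sub (hr : Rel L L' pr) (hl : Lft A B pr) (c : ℝ) : L'.O c ⊆ L.O c := fun _ k =>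
  ⟨hr.sub k.1, (hr.p_le hl k.1).trans_lt k.2.1, (hr.dual.p_le hl.dual k.1).trans_lt k.2.2⟩

theorem Stg.pos (S : Stg a0 a α L tp tn) (hy : y ∈ L.U) : 0 < α :=
  let ⟨b, _⟩ := LC.exists_bigA hy; @Stg.α_pos _ _ _ _ _ _ _ _ _ _ _ _ _ _ S ⟨b⟩

theorem Stg.BB_sub (S : Stg a0 a α L tp tn) : BB α L tp tn ⊆ L.O (a + 4 * α) := fun _ h =>
  ⟨h.1, by linarith [S.p_le h, S.pos h.1], by linarith [S.m_le h, S.pos h.1]⟩

theorem MM_sub : MM L tp tn ⊆ BB α L tp tn := fun _ h =>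
  ⟨h.1, h.2.1 ▸ expNegInvGlue.nonneg _, h.2.2 ▸ expNegInvGlue.nonneg _⟩

theorem Stg.mem_MM (S : Stg a0 a α L tp tn) (hy : y ∈ L.U) (h1 : L.p y ≤ a0) (h2 : L.m y ≤ a0) :
    y ∈ MM L tp tn := ⟨hy, S.hp.zero y hy h1, S.hn.zero y hy h2⟩

theorem Stg.O_sub (S : Stg a0 a α L tp tn) : L.O a0 ⊆ interior (MM L tp tn) :=
  interior_maximal (fun _ h => S.mem_MM h.1 h.2.1.le h.2.2.le) (L.isOpen_O a0)

theorem Stg.isCompact_BB (S : Stg a0 a α L tp tn) : IsCompact (BB α L tp tn) := by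
  have hK := L.isCompact_K (c := 1 / 14) le_rfl
  have := ((S.hp.sm.continuousOn.prodMk S.hn.sm.continuousOn).mono
    fun _ h => h.1).preimage_isClosed_of_isClosed hK.isClosed
    ((isClosed_Iic (a := sig (3 * α))).prod (isClosed_Iic (a := sig (3 * α))))
  have k : BB α L tp tn ⊆ {y | y ∈ L.U ∧ L.p y ≤ 1 / 14 ∧ L.m y ≤ 1 / 14} := fun y h =>
    ⟨h.1, by linarith [S.p_le h, S.pos h.1, S.hi], by linarith [S.m_le h, S.pos h.1, S.hi]⟩
  refine hK.of_isClosed_subset ?_ k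
  convert this using 1
  exact Subset.antisymm (fun y h => ⟨k h, h.2⟩) fun y h => ⟨h.1.1, h.2⟩

theorem Stg.isCompact_QQ (S : Stg a0 a α L tp tn) : IsCompact (QQ a α L) := by
  have hK := L.isCompact_K (c := a + 2 * α) (by linarith [S.hi, S.k10, kap_nonneg L])
  have := (((L.contDiffOn_w (Op A)).continuousOn.prodMk (L.contDiffOn_w (Om A)).continuousOn).mono
    fun _ h => h.1).preimage_isClosed_of_isClosed hK.isClosed
    ((isClosed_Ici (a := a + α / 2)).prod (isClosed_Ici (a := a + α / 2)))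
  refine hK.of_isClosed_subset ?_ fun y h => ⟨h.1, h.2.1.2, h.2.2.2⟩
  convert this using 1
  exact Subset.antisymm (fun y h => ⟨⟨h.1, h.2.1.2, h.2.2.2⟩, h.2.1.1, h.2.2.1⟩)
    fun y h => ⟨h.1.1, ⟨h.2.1, h.1.2.1⟩, h.2.2, h.1.2.2⟩

theorem Stg.of_QQ (S : Stg a0 a α L tp tn) (h : y ∈ QQ a α L) :
    y ∈ BB α L tp tn ∧ 0 < tp y ∧ 0 < tn y :=
  ⟨S.mem_BB h.1 h.2.1.2 h.2.2.2, S.tp_pos h.1 (by linarith [S.pos h.1, h.2.1.1]),
    S.dual.tp_pos h.1 (by linarith [S.pos h.1, h.2.2.1, show L.dual.p y = L.m y from rfl])⟩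

/-- the colours of the first plateau `{p ≤ a, m ≤ a}` -/
theorem mm_start (hα : 0 < α) : MM L (bump a α L fun _ => 0) (bump (P := Pᵒᵈ) a α L.dual fun _ => 0) =
    {y | y ∈ L.U ∧ L.p y ≤ a ∧ L.m y ≤ a} := Set.ext fun _ => and_congr_right fun hy =>
  and_congr (((pl0_zero L 0).bump_zero hα hy).trans (and_iff_right rfl))
    (((pl0_zero L.dual 0).bump_zero hα hy).trans (and_iff_right rfl))

theorem stg_bump (hp : Pl0 a0 L tp) (hn : Pl0 (P := Pᵒᵈ) a0 L.dual tn) (hα : 0 < α) (h0 : a0 ≤ c)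
    (k10 : 10 * (Fintype.card P * δ) ≤ α) (lo : α ≤ c) (hi : c + 4 * α ≤ 1 / 16) :
    Stg a0 c α L (bump c α L tp) (bump (P := Pᵒᵈ) c α L.dual tn) :=
  ⟨hp.bump hα h0 (by linarith [kap_nonneg L]),
    hn.bump hα h0 (show 2 * (Fintype.card P * δ) ≤ c by linarith [kap_nonneg L]),
    k10, lo, hi⟩

/-- the plateau of the next stage -/
theorem mm_next (hp : Pl0 a0 L tp) (hn : Pl0 (P := Pᵒᵈ) a0 L.dual tn) (hα : 0 < α)
    (hr : Rel L L' pr) (hc : Cv A B z pr) (hz : Zc A z) (h8 : c < 1 / 8)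
    (h : ∀ y ∈ MM L tp tn, L.p y ≤ c ∧ L.m y + 2 * (Fintype.card P * δ) ≤ c) :
    MM L' (bump c α L' tp) (bump (P := Qᵒᵈ) c α L'.dual tn) = {y | y ∈ MM L tp tn ∧ L.phi z c y = 1} := by
  have e1 := fun y hy => (hp.lift hr hc.toLft).bump_zero (a := c) (y := y) hα hy
  have e2 := fun y hy => (hn.lift hr.dual hc.toLft.dual).bump_zero (a := c) (y := y) hα hy
  refine Subset.antisymm (fun y ⟨h1, h2, h3⟩ => ?_) fun y ⟨h1, h2⟩ => ?_
  · have k : y ∈ MM L tp tn := ⟨hr.sub h1, ((e1 y h1).1 h2).1, ((e2 y h1).1 h3).1⟩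
    exact ⟨k, (hr.phi_one hc hz h8 k.1 (h y k).1 (h y k).2).2 ⟨h1, ((e1 y h1).1 h2).2, ((e2 y h1).1 h3).2⟩⟩
  · obtain ⟨k1, k2, k3⟩ := (hr.phi_one hc hz h8 h1.1 (h y h1).1 (h y h1).2).1 h2
    exact ⟨k1, (e1 y k1).2 ⟨h1.2.1, k2⟩, (e2 y k1).2 ⟨h1.2.2, k3⟩⟩

theorem Stg.low (S : Stg a0 a α L tp tn) (hy : y ∈ MM L tp tn) :
    L.p y ≤ a + 4 * α ∧ L.m y + 2 * (Fintype.card P * δ) ≤ a + 4 * α := by
  have h1 := S.hp.low y hy.1 hy.2.1
  have h2 : L.m y ≤ a := S.hn.low y hy.1 hy.2.2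
  exact ⟨by linarith [S.pos hy.1], by linarith [S.k10, S.pos hy.1]⟩

theorem cnd_zero' {s : St} (hs : Ind26.Wk s) : Cnd s.A 0 :=
  ⟨zc_zero _, exists_rch0 (zc_zero _) (condP_zero hs.conv hs.sfp.nc) (condP_zero hs.conv hs.sfp.nc),
    exists_rch0 (zc_zero _) (condM_dual (condM_zero hs.conv hs.sfm.nc))
      (condM_dual (condM_zero hs.conv hs.sfm.nc))⟩

theorem phi_zero (hc : c < 1 / 2) (hy : y ∈ L.O c) : L.phi 0 c y = 1 := by
  obtain ⟨b, hb, g⟩ := LC.exists_bigA hy.1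
  have e1 : SP A 0 b = Op A := union_eq_self_of_subset_right fun _ h => absurd h.2.2 (lt_irrefl _)
  have e2 : SM A 0 b = Om A := union_eq_self_of_subset_right fun _ h => absurd h.2.2 (lt_irrefl _)
  rw [LC.phi_eq (zc_zero A) hc hy.1 hy.2.1.le hy.2.2.le hb (g.le hy.1), LC.uu, e1, e2,
    (tau_zero_iff hc).2 (show L.w (Op A) y ≤ c from hy.2.1.le),
    (tau_zero_iff hc).2 (show L.w (Om A) y ≤ c from hy.2.2.le)]
  simp

end gen

variable {P Q : Type} [PartialOrder P] [Fintype P] [PartialOrder Q] [Fintype Q]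
  {A : Set P} {B : Set Q} {pr : Q → P} {z : P → P → ℤ} {δ a0 a c α : ℝ} {L : LC (EE 3) A δ}
  {L' : LC (EE 3) B δ} {tp tn : EE 3 → ℝ} {y : EE 3} {v : EE 3 → EE 3} {Y : CM 3} {V : Vf Y}
  {ι : PartialDiffeomorph (𝓡 3) (𝓡 3) (EE 3) Y ∞}

variable (L v ι V) in
/-- the chart carries `v` to `V` -/
structure Cht : Prop where
  fld : L.Fld v
  src : L.O (1 / 16) ⊆ ι.source
  eq : ∀ y ∈ L.O (1 / 16), (V (ι y) : EE 3) = mf (𝓡 3) (𝓡 3) ι y (v y)

theorem Cht.lift (h : Cht L v V ι) (hr : Rel L L' pr) (hl : Lft A B pr) : Cht L' v V ι :=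
  ⟨hr.fld hl h.fld, (hr.O_sub hl _).trans h.src, fun y hy => h.eq y (hr.O_sub hl _ hy)⟩

theorem symm_apply (hy : y ∈ ι.source) : ι.symm (ι y) = y := ι.toPartialEquiv.left_inv hy

theorem cmd_symm {F H N : Type} [NormedAddCommGroup F] [NormedSpace ℝ F] [TopologicalSpace H]
    {J : ModelWithCorners ℝ F H} [TopologicalSpace N] [ChartedSpace H N] {f : EE 3 → N}
    (hy : y ∈ ι.source) (hf : ContMDiffAt (𝓡 3) J ∞ f y) : ContMDiffAt (𝓡 3) J ∞ (f ∘ ι.symm) (ι y) :=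
  ContMDiffAt.comp (ι y) (by rwa [symm_apply hy]) (ι.symm.contMDiffOn.contMDiffAt
    (ι.open_target.mem_nhds (ι.toPartialEquiv.map_source hy)))

theorem Cht.dr_eq (h : Cht L v V ι) (hy : y ∈ L.O (1 / 16)) {f : EE 3 → ℝ} (hf : ContDiffAt ℝ ∞ f y) :
    dr (f ∘ ι.symm) V (ι y) = fderiv ℝ f y (v y) := by
  have h1 := mf_comp ((cmd_symm (h.src hy) hf.contMDiffAt).mdifferentiableAt (by simp))
    (ι.mdifferentiableAt (by simp) (h.src hy))
  have h2 : (f ∘ ι.symm) ∘ ι =ᶠ[𝓝 y] f :=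
    eventually_of_mem (ι.open_source.mem_nhds (h.src hy)) fun x hx => congrArg f (symm_apply hx)
  rw [mf_congr h2, mf_eq_fderiv] at h1
  rw [dr, h.eq y hy, h1]
  rfl

theorem isOpen_img {T : Set (EE 3)} (hT : IsOpen T) (h : T ⊆ ι.source) : IsOpen (ι '' T) :=
  ι.toOpenPartialHomeomorph.isOpen_image_of_subset_source hT h

theorem phi_symm_ev (hz : Zc A z) (hc : c < 1 / 2) (hy : y ∈ L.O c) (hs : y ∈ ι.source) {b : P}
    (hb : b ∈ A) (g : L.Big y b) : L.phi z c ∘ ι.symm =ᶠ[𝓝 (ι y)]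
      fun x => Circle.exp (((fun y => 2 * π * L.uu z c b y) ∘ ι.symm) x) := by
  have h1 : Tendsto ι.symm (𝓝 (ι y)) (𝓝 y) := by
    have := (cmd_symm (f := id) hs contMDiffAt_id).continuousAt.tendsto
    rwa [id_comp, symm_apply hs] at this
  exact h1.eventually (LC.phi_ev hz hc hy hb g)

namespace Stg

variable (S : Stg a0 a α L tp tn) (h : Cht L v V ι)
include S h

theorem O16 : L.O (a + 4 * α) ⊆ L.O (1 / 16) := LC.O_mono S.hi

theorem src : L.O (a + 4 * α) ⊆ ι.source := (S.O16 h).trans h.src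

theorem rt_eq (hz : Zc A z) (hy : y ∈ L.O (a + 4 * α)) {b : P} (hb : b ∈ A) (g : L.Big y b) :
    rt (L.phi z (a + 4 * α) ∘ ι.symm) V (ι y) = 2 * π * fderiv ℝ (L.uu z (a + 4 * α) b) y (v y) := by
  have c1 := (L.contDiffOn_uu z (a + 4 * α) b).contDiffAt (L.isOpen.mem_nhds hy.1)
  have c2 : ContDiffAt ℝ ∞ (fun y => 2 * π * L.uu z (a + 4 * α) b y) y := contDiffAt_const.mul c1
  rw [rt_congr (phi_symm_ev hz (by linarith [S.hi]) hy (S.src h hy) hb g), rt,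
    dl_exp (cmd_symm (S.src h hy) c2.contMDiffAt), ← dr, h.dr_eq (S.O16 h hy) c2,
    fderiv_const_mul (c1.differentiableAt (by simp))]
  rfl

/-- one stage -/
def pre (hα : 0 < α) (hz : Zc A z) :
    Pre V (ι '' MM L tp tn) (ι '' {y | y ∈ MM L tp tn ∧ L.phi z (a + 4 * α) y = 1}) where
  O := ι '' L.O (a + 4 * α)
  tp := tp ∘ ι.symm
  tm := (fun y => -tn y) ∘ ι.symm
  r := sig (3 * α)
  φ := L.phi z (a + 4 * α) ∘ ι.symm
  op := isOpen_img (L.isOpen_O _) (S.src h)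
  sp := by
    rintro _ ⟨y, hy, rfl⟩
    exact (cmd_symm (S.src h hy) (S.hp.sm.contDiffAt (L.isOpen.mem_nhds hy.1)).contMDiffAt).contMDiffWithinAt
  sm := by
    rintro _ ⟨y, hy, rfl⟩
    exact (cmd_symm (S.src h hy)
      (S.hn.sm.contDiffAt (L.isOpen.mem_nhds hy.1)).neg.contMDiffAt).contMDiffWithinAt
  p0 := by
    rintro _ ⟨y, hy, rfl⟩
    rw [comp_apply, symm_apply (S.src h hy)]
    exact S.hp.nn y hy.1
  m0 := by
    rintro _ ⟨y, hy, rfl⟩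
    rw [comp_apply, symm_apply (S.src h hy)]
    exact neg_nonpos.2 (S.hn.nn y hy.1)
  pv := by
    rintro _ ⟨y, hy, rfl⟩
    rw [h.dr_eq (S.O16 h hy) (S.hp.sm.contDiffAt (L.isOpen.mem_nhds hy.1))]
    exact S.hp.fld_nonneg h.fld hy.1
  mv := by
    rintro _ ⟨y, hy, rfl⟩
    rw [h.dr_eq (S.O16 h hy) (S.hn.sm.contDiffAt (L.isOpen.mem_nhds hy.1)).neg, fderiv_fun_neg,
      neg_apply, ← map_neg]
    exact S.hn.fld_nonneg h.fld.dual hy.1
  ly := by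
    rintro _ ⟨y, hy, rfl⟩ - - k
    rw [h.dr_eq (S.O16 h hy) (S.hp.sm.contDiffAt (L.isOpen.mem_nhds hy.1)),
      h.dr_eq (S.O16 h hy) (S.hn.sm.contDiffAt (L.isOpen.mem_nhds hy.1)).neg, fderiv_fun_neg,
      neg_apply, ← map_neg]
    rcases (S.hp.nn y hy.1).eq_or_lt with e | e
    · exact add_pos_of_nonneg_of_pos (S.hp.fld_nonneg h.fld hy.1) (S.hn.fld_pos h.fld.dual hy.1
        ((S.hn.nn y hy.1).lt_of_ne' fun e' => k ⟨y, ⟨hy.1, e.symm, e'⟩, rfl⟩))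
    · exact add_pos_of_pos_of_nonneg (S.hp.fld_pos h.fld hy.1 e) (S.hn.fld_nonneg h.fld.dual hy.1)
  meq x := by
    constructor
    · rintro ⟨y, hy, rfl⟩
      have k := S.BB_sub (MM_sub hy)
      simp only [comp_apply, symm_apply (S.src h k), neg_eq_zero]
      exact ⟨⟨y, k, rfl⟩, hy.2⟩
    · rintro ⟨⟨y, hy, rfl⟩, k⟩
      simp only [comp_apply, symm_apply (S.src h hy), neg_eq_zero] at k
      exact ⟨y, ⟨hy.1, k⟩, rfl⟩
  rpos := expNegInvGlue.pos_of_pos (by linarith)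
  cpt := by
    convert S.isCompact_BB.image_of_continuousOn
      (ι.contMDiffOn.continuousOn.mono (S.BB_sub.trans (S.src h))) using 1
    ext x
    constructor
    · rintro ⟨⟨y, hy, rfl⟩, k⟩
      simp only [comp_apply, symm_apply (S.src h hy), neg_le_neg_iff] at k
      exact ⟨y, ⟨hy.1, k⟩, rfl⟩
    · rintro ⟨y, hy, rfl⟩
      have k := S.BB_sub hy
      simp only [mem_ofPred_eq, comp_apply, symm_apply (S.src h k), neg_le_neg_iff]
      exact ⟨⟨y, k, rfl⟩, hy.2⟩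
  sφ := by
    rintro _ ⟨y, hy, rfl⟩
    obtain ⟨b, hb, g⟩ := LC.exists_bigA hy.1
    exact ((csm_exp (cmd_symm (S.src h hy) (contDiffAt_const.mul ((L.contDiffOn_uu z _ b).contDiffAt
      (L.isOpen.mem_nhds hy.1))).contMDiffAt)).congr_of_eventuallyEq
      (phi_symm_ev hz (by linarith [S.hi]) hy (S.src h hy) hb g)).contMDiffWithinAt
  φv := by
    rintro _ ⟨y, hy, rfl⟩
    obtain ⟨b, hb, g⟩ := LC.exists_bigA hy.1
    rw [S.rt_eq h hz hy hb g]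
    exact mul_nonneg Real.two_pi_pos.le (h.fld.uu_nonneg hz (by linarith [S.hi]) hy.1 hb)
  φs := by
    rintro _ ⟨y, hy, rfl⟩ k
    obtain ⟨b, hb, g, k1⟩ := h.fld.uu_pos hz (by linarith [S.hi]) hy.1 (S.low hy).1 (S.low hy).2
      fun e => k ⟨y, ⟨hy, e⟩, rfl⟩
    rw [S.rt_eq h hz (S.BB_sub (MM_sub hy)) hb g]
    exact mul_pos Real.two_pi_pos k1
  meq' x := by
    constructor
    · rintro ⟨y, hy, rfl⟩
      exact ⟨⟨y, hy.1, rfl⟩, by rw [comp_apply, symm_apply (S.src h (S.BB_sub (MM_sub hy.1)))]; exact hy.2⟩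
    · rintro ⟨⟨y, hy, rfl⟩, k⟩
      rw [comp_apply, symm_apply (S.src h (S.BB_sub (MM_sub hy)))] at k
      exact ⟨y, ⟨hy, k⟩, rfl⟩

theorem mem_B (hα : 0 < α) (hz : Zc A z) {x : Y} :
    x ∈ (S.pre h hα hz).B (S.pre h hα hz).r ↔ x ∈ ι '' BB α L tp tn := by
  constructor
  · rintro ⟨⟨y, hy, rfl⟩, k⟩
    simp only [pre, comp_apply, symm_apply (S.src h hy), neg_le_neg_iff] at k
    exact ⟨y, ⟨hy.1, k⟩, rfl⟩
  · rintro ⟨y, hy, rfl⟩
    have k := S.BB_sub hy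
    simp only [Pre.B, pre, mem_ofPred_eq, comp_apply, symm_apply (S.src h k), neg_le_neg_iff]
    exact ⟨⟨y, k, rfl⟩, hy.2⟩

/-- the stage is conditioned -/
theorem cd (hα : 0 < α) (hz : Cnd A z) : (S.pre h hα hz.zc).Cd false := by
  obtain ⟨D, hD⟩ := S.join hz
  refine ⟨D, ι '' QQ a α L, S.isCompact_QQ.image_of_continuousOn (ι.contMDiffOn.continuousOn.mono
    fun y hy => S.src h (S.BB_sub (S.of_QQ hy).1)), ?_, fun q hq k => ?_⟩
  · rintro _ ⟨y, hy, rfl⟩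
    have k := S.of_QQ hy
    have k' := S.BB_sub k.1
    refine ⟨⟨y, k', rfl⟩, (S.mem_B h hα hz.zc).2 ⟨y, k.1, rfl⟩, ?_⟩
    simp only [pre, comp_apply, symm_apply (S.src h k'), neg_lt_zero]
    exact k.2
  obtain ⟨x, u⟩ := q
  obtain ⟨y, hy, rfl⟩ := (S.mem_B h hα hz.zc).1 k
  obtain ⟨-, k1⟩ := hq
  simp only [pre, comp_apply, symm_apply (S.src h (S.BB_sub hy)), neg_lt_zero] at k1
  obtain ⟨q', a1, j⟩ := hD y hy u k1.1 k1.2
  refine ⟨(ι q'.1, q'.2), ⟨_, a1, rfl⟩, (j.map_continuousOn (f := fun p => (ι p.1, p.2))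
    ((ι.contMDiffOn.continuousOn.comp continuousOn_fst fun p hp => S.src h (S.BB_sub hp.1)).prodMk
      continuousOn_snd)).mono ?_⟩
  rintro _ ⟨p, ⟨b1, b2, b3, b4⟩, rfl⟩
  refine ⟨⟨⟨_, S.BB_sub b1, rfl⟩, ?_⟩, (S.mem_B h hα hz.zc).2 ⟨_, b1, rfl⟩, b4⟩
  simp only [pre, comp_apply, symm_apply (S.src h (S.BB_sub b1)), neg_lt_zero]
  exact ⟨b2, b3⟩

end Stg

theorem hier_wk {s : St} (h : Ind26.Hier s) : Ind26.Wk s := by
  cases h with
  | fin h => exact h.toWk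
  | step h => exact h.wk

/-- **the chain of stages** -/
theorem chain {s : St} (h : Ind26.Hier s) : ∃ n N : ℕ, Fintype.card s.P ≤ N ∧
    ∀ (δ a0 a α : ℝ) (L : LC (EE 3) s.A δ) (tp tn : EE 3 → ℝ) (v : EE 3 → EE 3) (Y : CM 3) (V : Vf Y)
      (ι : PartialDiffeomorph (𝓡 3) (𝓡 3) (EE 3) Y ∞), Stg a0 a α L tp tn → Cht L v V ι → 0 < α →
      a0 ≤ a → 10 * (N * δ) ≤ α → a + 4 * (n + 1) * α ≤ 1 / 16 →
      ∃ (t : St) (L' : LC (EE 3) t.A δ) (a' : ℝ) (tp' tn' : EE 3 → ℝ), Ind26.End t ∧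
        Stg a0 a' α L' tp' tn' ∧ Cht L' v V ι ∧ L'.U ⊆ L.U ∧
        Ch V false n (ι '' MM L tp tn) (ι '' MM L' tp' tn') := by
  induction h with
  | @fin s h => exact ⟨0, _, le_rfl, fun δ a0 a α L tp tn v Y V ι S C _ _ _ _ =>
      ⟨s, L, a, tp, tn, h, S, C, subset_rfl, rfl⟩⟩
  | @step s s' z pr h1 h2 h3 h4 ih =>
    obtain ⟨n, N, hN, ih⟩ := ih
    refine ⟨n + 1, max N (Fintype.card s.P), le_max_right _ _,
      fun δ a0 a α L tp tn v Y V ι S C hα h0 k1 k2 => ?_⟩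
    have n0 : (0 : ℝ) ≤ n * α := mul_nonneg (Nat.cast_nonneg n) hα.le
    push_cast at k2
    have k3 : 10 * (N * δ) ≤ α := le_trans (mul_le_mul_of_nonneg_left (mul_le_mul_of_nonneg_right
      (by exact_mod_cast le_max_left _ _) L.δ0.le) (by norm_num)) k1
    have k4 : 10 * (Fintype.card s'.P * δ) ≤ α := le_trans (mul_le_mul_of_nonneg_left
      (mul_le_mul_of_nonneg_right (by exact_mod_cast hN) L.δ0.le) (by norm_num)) k3
    have hc := cv_of h3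
    have hz := cnd_of h1.toTaut h2
    obtain ⟨L', hr⟩ := L.exists_lift hc.toLft (hier_wk h4).conv (by linarith [S.lo])
    obtain ⟨t, L'', a', tp', tn', e1, e2, e3, e4, e5⟩ := ih δ a0 (a + 4 * α) α L' _ _ v Y V ι
      (stg_bump (S.hp.lift hr hc.toLft) (S.hn.lift hr.dual hc.toLft.dual) hα (by linarith) k4
        (by linarith [S.lo]) (by linarith)) (C.lift hr hc.toLft) hα (by linarith) k3 (by linarith)
    rw [mm_next S.hp.toPl0 S.hn.toPl0 hα hr hc hz.zc (by linarith [S.hi]) fun y hy => S.low hy] at e5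
    exact ⟨t, L'', a', tp', tn', e1, e2, e3, e4.trans hr.sub, _, S.pre C hα hz.zc, S.cd C hα hz, e5⟩

/-- the chain from the first cut: `M₀ = {p ≤ a, m ≤ a, φ = 1}` -/
theorem chain_start {s s' : St} {z : s.P → s.P → ℤ} {pr : s'.P → s.P} (hc : Ind26.Cov s s' z pr)
    (hz : Zc s.A z) (h : Ind26.Hier s') : ∃ n N : ℕ, Fintype.card s.P ≤ N ∧
    ∀ (δ a c α : ℝ) (L : LC (EE 3) s.A δ) (v : EE 3 → EE 3) (Y : CM 3) (V : Vf Y)
      (ι : PartialDiffeomorph (𝓡 3) (𝓡 3) (EE 3) Y ∞), Cht L v V ι → 0 < α → 10 * (N * δ) ≤ α →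
      α ≤ a → a + α ≤ c → c + 4 * (n + 1) * α ≤ 1 / 16 →
      ∃ (t : St) (L' : LC (EE 3) t.A δ) (a' : ℝ) (tp' tn' : EE 3 → ℝ), Ind26.End t ∧
        Stg a a' α L' tp' tn' ∧ Cht L' v V ι ∧ L'.U ⊆ L.U ∧ Ch V false n
          (ι '' {y | y ∈ L.U ∧ L.p y ≤ a ∧ L.m y ≤ a ∧ L.phi z c y = 1}) (ι '' MM L' tp' tn') := by
  obtain ⟨n, N, hN, ih⟩ := chain h
  refine ⟨n, max N (Fintype.card s.P), le_max_right _ _, fun δ a c α L v Y V ι C hα k1 k5 k6 k2 => ?_⟩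
  have n0 : (0 : ℝ) ≤ n * α := mul_nonneg (Nat.cast_nonneg n) hα.le
  have k0 : ∀ m : ℕ, m ≤ max N (Fintype.card s.P) → 10 * (m * δ) ≤ α := fun m hm =>
    le_trans (mul_le_mul_of_nonneg_left (mul_le_mul_of_nonneg_right (by exact_mod_cast hm) L.δ0.le)
      (by norm_num)) k1
  have k3 := k0 _ (le_max_left _ _)
  have k4 := k0 _ (hN.trans (le_max_left _ _))
  have k7 := k0 _ (le_max_right _ _)
  have hc := cv_of hc
  obtain ⟨L', hr⟩ := L.exists_lift hc.toLft (hier_wk h).conv (by linarith)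
  have hp := ((pl0_zero L a).bump hα le_rfl (by linarith [kap_nonneg L])).toPl0
  have hn := ((pl0_zero L.dual a).bump hα le_rfl
    (show 2 * (Fintype.card s.P * δ) ≤ a by linarith [kap_nonneg L])).toPl0
  obtain ⟨t, L'', a', tp', tn', e1, e2, e3, e4, e5⟩ := ih δ a c α L' _ _ v Y V ι
    (stg_bump (hp.lift hr hc.toLft) (hn.lift hr.dual hc.toLft.dual) hα (by linarith) k4
      (by linarith) (by linarith)) (C.lift hr hc.toLft) hα (by linarith) k3 k2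
  rw [mm_next hp hn hα hr hc hz (by linarith) (fun y hy => by
    rw [mm_start hα] at hy
    exact ⟨by linarith [hy.2.1], by linarith [hy.2.2, kap_nonneg L]⟩), mm_start hα] at e5
  exact ⟨t, L'', a', tp', tn', e1, e2, e3, e4.trans hr.sub, by simpa only [mem_ofPred_eq, and_assoc] using e5⟩

end Crest.Agent.X212.Mol27
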