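import Crest.Agent.X212.Mol27.Lift

/-!
# X212 / Mol27 (helper27): plateau functions

* `sig`, `tau` : the profile functions;
* `Pl0`, `Pl` : the colour of `O₊` (use `L.dual` for `O₋`);  `Pl0.lift`, `Pl0.bump`.
-/

set_option autoImplicit false
set_option linter.unusedSectionVars false

open Set Filter Topology Function Metric Classical
open scoped ContDiff NNReal
open Crest.Agent.X212.Sm10 Crest.Agent.X212.Hp13 Crest.Agent.X212.Alg36

noncomputable section

namespace Crest.Agent.X212.Mol27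

/-! ### profiles -/

/-- zero on the negative reals, strictly increasing on the positive reals -/
abbrev sig : ℝ → ℝ := expNegInvGlue

theorem hasDerivAt_sig (x : ℝ) : HasDerivAt sig (deriv sig x) x :=
  ((expNegInvGlue.contDiff (n := 1)).differentiable (by simp) x).hasDerivAt

theorem deriv_sig_nonneg (x : ℝ) : 0 ≤ deriv sig x := expNegInvGlue.monotone.deriv_nonneg

theorem deriv_sig_pos {x : ℝ} (h : 0 < x) : 0 < deriv sig x := by
  have := (expNegInvGlue.hasDerivAt_polynomial_eval_inv_mul 1 x).deriv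
  simp only [Polynomial.eval_one, one_mul, Polynomial.derivative_one, sub_zero, mul_one,
    Polynomial.eval_pow, Polynomial.eval_X] at this
  rw [show deriv sig x = _ from this]
  exact mul_pos (pow_pos (inv_pos.2 h) 2) (expNegInvGlue.pos_of_pos h)

theorem sig_le_one (x : ℝ) : sig x ≤ 1 := by
  unfold sig expNegInvGlue
  split_ifs with h
  · exact zero_le_one
  · exact Real.exp_le_one_iff.2 (neg_nonpos.2 (inv_nonneg.2 (not_le.1 h).le))

theorem sig_lt {x y : ℝ} (h : 0 < y) (hxy : x < y) : sig x < sig y := by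
  rcases le_or_gt x 0 with k | k
  · rw [sig, expNegInvGlue.zero_of_nonpos k]; exact expNegInvGlue.pos_of_pos h
  · exact strictMonoOn_of_deriv_pos (convex_Ioi 0) (expNegInvGlue.contDiff (n := 0)).continuous.continuousOn
      (fun z hz => deriv_sig_pos (interior_subset hz)) k h hxy

theorem st_symm (x : ℝ) : Real.smoothTransition (1 - x) = 1 - Real.smoothTransition x := by
  have := (Real.smoothTransition.pos_denom x).ne'
  simp only [Real.smoothTransition, sub_sub_cancel]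
  rw [add_comm (expNegInvGlue (1 - x))]
  field_simp
  ring

theorem deriv_st_pos {x : ℝ} (h0 : 0 < x) (h1 : x < 1) : 0 < deriv Real.smoothTransition x := by
  have d := (hasDerivAt_sig x).div ((hasDerivAt_sig x).add
    ((hasDerivAt_sig (1 - x)).comp x ((hasDerivAt_id x).const_sub 1)))
    (Real.smoothTransition.pos_denom x).ne'
  rw [show deriv Real.smoothTransition x = _ from d.deriv]
  refine div_pos ?_ (pow_pos (Real.smoothTransition.pos_denom x) 2)
  have a1 := deriv_sig_pos h0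
  have a2 := deriv_sig_nonneg (1 - x)
  have a3 : 0 < sig (1 - x) := expNegInvGlue.pos_of_pos (sub_pos.2 h1)
  have a4 : 0 < sig x := expNegInvGlue.pos_of_pos h0
  simp only [Pi.add_apply, comp_apply]
  nlinarith [mul_pos a1 a3, mul_nonneg a4.le a2]

/-- `0` below `a`, `1` above `1 - a` -/
def tau (a x : ℝ) : ℝ := Real.smoothTransition ((x - a) / (1 - 2 * a))

section tau

variable {a x : ℝ}

theorem contDiff_tau (a : ℝ) : ContDiff ℝ ∞ (tau a) :=
  Real.smoothTransition.contDiff.comp ((contDiff_id.sub contDiff_const).div_const _)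

theorem tau_nonneg (a x : ℝ) : 0 ≤ tau a x := Real.smoothTransition.nonneg _
theorem tau_le_one (a x : ℝ) : tau a x ≤ 1 := Real.smoothTransition.le_one _

theorem tau_zero_iff (ha : a < 1 / 2) : tau a x = 0 ↔ x ≤ a := by
  rw [tau, Real.smoothTransition.zero_iff_nonpos, div_nonpos_iff]
  constructor
  · rintro (h | h) <;> linarith [h.1, h.2]
  · exact fun h => .inr ⟨by linarith, by linarith⟩

theorem tau_one_iff (ha : a < 1 / 2) : tau a x = 1 ↔ 1 - a ≤ x := by
  rw [tau, Real.smoothTransition.eq_one_iff_one_le, one_le_div (by linarith)]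
  constructor <;> intro h <;> linarith

theorem tau_symm (ha : a < 1 / 2) (x : ℝ) : tau a (1 - x) = 1 - tau a x := by
  have : (1 - 2 * a) ≠ 0 := by linarith
  rw [tau, tau, ← st_symm]
  congr 1
  rw [one_sub_div this]
  congr 1
  ring

theorem monotone_tau (ha : a < 1 / 2) : Monotone (tau a) := fun _ _ h =>
  Real.smoothTransition.monotone (div_le_div_of_nonneg_right (by linarith) (by linarith))

theorem hasDerivAt_tau (a x : ℝ) : HasDerivAt (tau a) (deriv (tau a) x) x :=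
  ((contDiff_tau a).differentiable (by simp) x).hasDerivAt

theorem deriv_tau_pos (h0 : a < x) (h1 : x < 1 - a) : 0 < deriv (tau a) x := by
  have k : 0 < 1 - 2 * a := by linarith
  have d := ((Real.smoothTransition.contDiff (n := 1)).differentiable (by simp) _).hasDerivAt.comp x
    (((hasDerivAt_id x).sub_const a).div_const (1 - 2 * a))
  rw [show deriv (tau a) x = _ from d.deriv]
  exact mul_pos (deriv_st_pos (div_pos (sub_pos.2 h0) k) ((div_lt_one k).2 (by simp; linarith)))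
    (one_div_pos.2 k)

end tau

variable {E : Type} [NormedAddCommGroup E] [NormedSpace ℝ E]
  {P Q : Type} [PartialOrder P] [Fintype P] [PartialOrder Q] [Fintype Q]
  {A : Set P} {B : Set Q} {π : Q → P} {δ a0 a α : ℝ} {L : LC E A δ} {L' : LC E B δ} {t : E → ℝ}
  {y : E}

theorem LC.fderiv_comp (hy : y ∈ L.U) {f : E → ℝ} (hf : ContDiffOn ℝ ∞ f L.U) {g : ℝ → ℝ} {g' : ℝ}
    (hg : HasDerivAt g g' (f y)) (u : E) : fderiv ℝ (fun x => g (f x)) y u = g' * fderiv ℝ f y u := by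
  rw [show fderiv ℝ (fun x => g (f x)) y = _ from
    (hg.comp_hasFDerivAt y (LC.diff hy hf).hasFDerivAt).fderiv]
  rfl

theorem op_lt (hA : A.OrdConnected) {b o : P} (hb : b ∈ A) (ho : o ∈ Op A) (h : Cm b o) : b < o := by
  obtain ⟨h1, a, ha, h2⟩ := ho
  rcases h with h | h
  · exact h.lt_of_ne fun e => h1 (e ▸ hb)
  · exact absurd (hA.out ha hb ⟨h2, h⟩) h1

theorem op_of_le (hA : A.OrdConnected) {s q : P} (hs : s ∈ Op A) (h : s ≤ q) : q ∈ Op A :=
  let ⟨h1, a, ha, h2⟩ := hs; ⟨fun n => h1 (hA.out ha n ⟨h2, h⟩), a, ha, h2.trans h⟩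

theorem Lft.op (hl : Lft A B π) (hA : A.OrdConnected) {b q : Q} (hb : b ∈ B) (h : Cm b q)
    (hq : π q ∈ Op A) : q ∈ Op B :=
  ⟨fun n => hq.1 (hl.bij.mapsTo n), b, hb, h.elim id fun n =>
    absurd (hl.mono.monotone n) (op_lt hA (hl.bij.mapsTo hb) hq (hl.cm h)).not_ge⟩

theorem LC.fderiv_p_nonneg (hy : y ∈ L.U) {s q : P} (hs : δ ≤ L.lam y s) (hq : δ ≤ L.lam y q)
    (h : s ∈ Op A → q ∈ Op A) : 0 ≤ fderiv ℝ L.p y (L.X q - L.X s) := by
  rw [LC.p, LC.fderiv_w hy hs hq, sub_nonneg]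
  by_cases k : s ∈ Op A
  · rw [io_mem k, io_mem (h k)]
  · rw [io_not k]; exact io_nonneg _ _

variable (L a0 t) in
/-- a colour of `O₊` -/
structure Pl0 : Prop where
  sm : ContDiffOn ℝ ∞ t L.U
  nn : ∀ y ∈ L.U, 0 ≤ t y
  le : ∀ y ∈ L.U, t y ≤ 2
  mono : ∀ y ∈ L.U, ∀ s q, δ ≤ L.lam y s → δ ≤ L.lam y q → s ≤ q → 0 ≤ fderiv ℝ t y (L.X q - L.X s)
  inv : ∀ y ∈ L.U, ∀ s q, δ ≤ L.lam y s → δ ≤ L.lam y q → s ∉ Op A → q ∉ Op A →
    fderiv ℝ t y (L.X q - L.X s) = 0
  str : ∀ y ∈ L.U, 0 < t y → ∃ o ∈ Op A, L.Big y o ∧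
    ∀ b ∈ A, δ ≤ L.lam y b → 0 < fderiv ℝ t y (L.X o - L.X b)
  zero : ∀ y ∈ L.U, L.p y ≤ a0 → t y = 0

variable (L a0 a α t) in
/-- a colour of `O₊` with threshold `a` -/
structure Pl : Prop extends Pl0 a0 L t where
  low : ∀ y ∈ L.U, t y = 0 → L.p y ≤ a
  fat : ∀ y ∈ L.U, L.p y ≤ a + 2 * α → t y ≤ sig (3 * α)
  thin : ∀ y ∈ L.U, t y ≤ sig (3 * α) → L.p y ≤ a + 3 * α

theorem pl0_zero (L : LC E A δ) (a0 : ℝ) : Pl0 a0 L fun _ => 0 :=
  ⟨contDiffOn_const, fun _ _ => le_rfl, fun _ _ => zero_le_two, fun _ _ _ _ _ _ _ => by simp,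
    fun _ _ _ _ _ _ _ _ => by simp, fun _ _ h => absurd h (lt_irrefl _), fun _ _ _ => rfl⟩

theorem Pl0.lift (h : Pl0 a0 L t) (hr : Rel L L' π) (hl : Lft A B π) : Pl0 a0 L' t where
  sm := h.sm.mono hr.sub
  nn y hy := h.nn y (hr.sub hy)
  le y hy := h.le y (hr.sub hy)
  mono y hy s q hs hq k := by
    rw [hr.X]
    exact h.mono y (hr.sub hy) _ _ (hr.le hy hs) (hr.le hy hq) (hl.mono.monotone k)
  inv y hy s q hs hq k k' := by
    obtain ⟨b, hb, g⟩ := LC.exists_bigA hy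
    rw [hr.X]
    exact h.inv y (hr.sub hy) _ _ (hr.le hy hs) (hr.le hy hq)
      (fun n => k (hl.op L.conv hb (LC.cm_of_le hy (g.le hy) hs) n))
      fun n => k' (hl.op L.conv hb (LC.cm_of_le hy (g.le hy) hq) n)
  str y hy k := by
    obtain ⟨b, hb, g⟩ := LC.exists_bigA hy
    obtain ⟨o, ho, k1, k2⟩ := h.str y (hr.sub hy) k
    obtain ⟨q, hq, rfl, k3⟩ := hr.exists_big hl hy hb (g.le hy) k1
    refine ⟨q, hl.op L.conv hb hq ho, k3, fun c hc k4 => ?_⟩
    rw [hr.X]
    exact k2 _ (hl.bij.mapsTo hc) (hr.le hy k4)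
  zero y hy k := h.zero y (hr.sub hy) ((hr.p_le hl hy).trans k)

/-- the scale of the old colour -/
def eps (α : ℝ) : ℝ := (sig (3 * α) - sig (2 * α)) / 2

theorem eps_pos (h : 0 < α) : 0 < eps α :=
  half_pos (sub_pos.2 (sig_lt (by linarith) (by linarith)))

theorem eps_le (α : ℝ) : eps α ≤ 1 / 2 := by
  unfold eps
  linarith [sig_le_one (3 * α), expNegInvGlue.nonneg (2 * α)]

variable (L a α t) in
/-- the new colour -/
def bump (y : E) : ℝ := eps α * t y + sig (L.p y - a)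

theorem Pl0.bump_zero (h : Pl0 a0 L t) (hα : 0 < α) (hy : y ∈ L.U) :
    bump a α L t y = 0 ↔ t y = 0 ∧ L.p y ≤ a := by
  rw [bump, add_eq_zero_iff_of_nonneg (mul_nonneg (eps_pos hα).le (h.nn y hy)) (expNegInvGlue.nonneg _),
    expNegInvGlue.zero_iff_nonpos, sub_nonpos, mul_eq_zero, or_iff_right (eps_pos hα).ne']

theorem Pl0.fderiv_bump (h : Pl0 a0 L t) (hy : y ∈ L.U) (u : E) : fderiv ℝ (bump a α L t) y u =
    eps α * fderiv ℝ t y u + deriv sig (L.p y - a) * fderiv ℝ L.p y u := by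
  have d := ((LC.diff hy h.sm).hasFDerivAt.const_mul (eps α)).add
    ((hasDerivAt_sig (L.p y - a)).comp_hasFDerivAt y
      ((LC.diff hy (L.contDiffOn_w (Op A))).hasFDerivAt.sub_const a))
  rw [show fderiv ℝ (bump a α L t) y = _ from d.fderiv]
  rfl

theorem Pl0.bump (h : Pl0 a0 L t) (hα : 0 < α) (h0 : a0 ≤ a) (h1 : 2 * (Fintype.card P * δ) ≤ a) :
    Pl a0 a α L (bump a α L t) where
  sm := (contDiffOn_const.mul h.sm).add
    (expNegInvGlue.contDiff.comp_contDiffOn ((L.contDiffOn_w _).sub contDiffOn_const))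
  nn y hy := add_nonneg (mul_nonneg (eps_pos hα).le (h.nn y hy)) (expNegInvGlue.nonneg _)
  le y hy := by
    have := mul_le_mul (eps_le α) (h.le y hy) (h.nn y hy) (by norm_num)
    unfold Mol27.bump
    linarith [sig_le_one (L.p y - a)]
  mono y hy s q hs hq k := by
    rw [h.fderiv_bump hy]
    exact add_nonneg (mul_nonneg (eps_pos hα).le (h.mono y hy s q hs hq k)) (mul_nonneg
      (deriv_sig_nonneg _) (LC.fderiv_p_nonneg hy hs hq fun n => op_of_le L.conv n k))
  inv y hy s q hs hq k k' := by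
    rw [h.fderiv_bump hy, h.inv y hy s q hs hq k k', LC.p, LC.fderiv_w hy hs hq, io_not k, io_not k']
    simp
  str y hy k := by
    have e1 : ∀ o ∈ Op A, L.Big y o → ∀ b ∈ A, δ ≤ L.lam y b → fderiv ℝ L.p y (L.X o - L.X b) = 1 :=
      fun o ho g b hb k => by
        rw [LC.p, LC.fderiv_w hy k (g.le hy), io_mem ho, io_not fun n => n.1 hb, sub_zero]
    rcases (h.nn y hy).eq_or_lt with e | e
    · have k' : a < L.p y := not_le.1 fun n => k.ne' ((h.bump_zero hα hy).2 ⟨e.symm, n⟩)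
      obtain ⟨o, ho, g⟩ := LC.exists_big (h1.trans_lt k')
      refine ⟨o, ho, g, fun b hb k2 => ?_⟩
      rw [h.fderiv_bump hy, e1 o ho g b hb k2, mul_one]
      exact add_pos_of_nonneg_of_pos (mul_nonneg (eps_pos hα).le (h.mono y hy b o k2 (g.le hy)
        (op_lt L.conv hb ho (LC.cm_of_le hy k2 (g.le hy))).le)) (deriv_sig_pos (sub_pos.2 k'))
    · obtain ⟨o, ho, g, k1⟩ := h.str y hy e
      refine ⟨o, ho, g, fun b hb k2 => ?_⟩
      rw [h.fderiv_bump hy, e1 o ho g b hb k2, mul_one]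
      exact add_pos_of_pos_of_nonneg (mul_pos (eps_pos hα) (k1 b hb k2)) (deriv_sig_nonneg _)
  zero y hy k := (h.bump_zero hα hy).2 ⟨h.zero y hy k, k.trans h0⟩
  low y hy k := ((h.bump_zero hα hy).1 k).2
  fat y hy k := by
    have := mul_le_mul_of_nonneg_left (h.le y hy) (eps_pos hα).le
    have h2 : sig (L.p y - a) ≤ sig (2 * α) := expNegInvGlue.monotone (by linarith)
    unfold Mol27.bump
    unfold eps at *
    linarith
  thin y hy k := by
    by_contra n
    have := sig_lt (x := 3 * α) (y := L.p y - a) (by linarith [not_le.1 n]) (by linarith [not_le.1 n])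
    unfold Mol27.bump at k
    linarith [mul_nonneg (eps_pos hα).le (h.nn y hy)]

theorem Pl0.fld_nonneg (h : Pl0 a0 L t) {v : E → E} (hv : L.Fld v) (hy : y ∈ L.U) :
    0 ≤ fderiv ℝ t y (v y) :=
  hv.nonneg hy fun s q k hs hq => h.mono y hy s q (hs.le hy) (hq.le hy) k.le

theorem Pl0.fld_pos (h : Pl0 a0 L t) {v : E → E} (hv : L.Fld v) (hy : y ∈ L.U) (k : 0 < t y) :
    0 < fderiv ℝ t y (v y) := by
  obtain ⟨b, hb, g⟩ := LC.exists_bigA hy
  obtain ⟨o, ho, k1, k2⟩ := h.str y hy k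
  exact hv.pos hy (fun s q k hs hq => h.mono y hy s q (hs.le hy) (hq.le hy) k.le)
    (op_lt L.conv hb ho (LC.cm_of_le hy (g.le hy) (k1.le hy))) g k1 (k2 b hb (g.le hy))

/-- `p` increases -/
theorem LC.Fld.p_nonneg {v : E → E} (hv : L.Fld v) (hy : y ∈ L.U) : 0 ≤ fderiv ℝ L.p y (v y) :=
  hv.w_nonneg hy fun _ _ k _ _ h => op_of_le L.conv h k.le

theorem LC.Fld.p_pos {v : E → E} (hv : L.Fld v) (hy : y ∈ L.U)
    (h : 2 * (Fintype.card P * δ) < L.p y) : 0 < fderiv ℝ L.p y (v y) :=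
  hv.w_pos hy (fun _ _ k _ _ h => op_of_le L.conv h k.le) h (by
    have h1 : L.w Aᶜ y < 1 / 4 := L.hv y hy
    have h2 : 0 ≤ L.m y := LC.w_nonneg hy _
    have h3 : L.w (Op A) y = L.p y := rfl
    linarith [LC.w_not hy, L.small])

/-- `m` decreases -/
theorem LC.Fld.m_nonpos {v : E → E} (hv : L.Fld v) (hy : y ∈ L.U) : fderiv ℝ L.m y (v y) ≤ 0 := by
  have := hv.dual.p_nonneg hy
  rwa [Pi.neg_apply, map_neg, neg_nonneg] at this

theorem LC.Fld.m_neg {v : E → E} (hv : L.Fld v) (hy : y ∈ L.U)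
    (h : 2 * (Fintype.card P * δ) < L.m y) : fderiv ℝ L.m y (v y) < 0 := by
  have := hv.dual.p_pos hy h
  rwa [Pi.neg_apply, map_neg, neg_pos] at this

end Crest.Agent.X212.Mol27
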