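import Crest.Agent.X212.Mol27.Fld
import Crest.Agent.X212.Alg36.Hp3

/-!
# X212 / Mol27 (helper27): lifted coordinates

* `wS S μ` : total weight of a set of vertices;
* `LC E A δ` : PL coordinates `lam` and smooth coordinates `mu` of the manifold `A` on an open set;
* `L.Fld v` : `v` moves weight upwards;  `L.seg` : straight moves;  `LC.base`.
-/

set_option autoImplicit false
set_option linter.unusedSectionVars false

open Set Filter Topology Function Metric Classical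
open scoped ContDiff NNReal
open Crest.Agent.X212.Sm10 Crest.Agent.X212.Hp13 Crest.Agent.X212.Alg36

noncomputable section

namespace Crest.Agent.X212.Mol27

section weights

variable {P : Type} [Fintype P] {S T : Set P} {μ ν : P → ℝ} {c : ℝ}

/-- indicator -/
def io (S : Set P) (q : P) : ℝ := if q ∈ S then 1 else 0

theorem io_mem {q : P} (h : q ∈ S) : io S q = 1 := if_pos h
theorem io_not {q : P} (h : q ∉ S) : io S q = 0 := if_neg h
theorem io_nonneg (S : Set P) (q : P) : 0 ≤ io S q := by unfold io; split_ifs <;> norm_num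
theorem io_le (S : Set P) (q : P) : io S q ≤ 1 := by unfold io; split_ifs <;> norm_num

/-- the weight of `S` -/
def wS (S : Set P) (μ : P → ℝ) : ℝ := ∑ q, io S q * μ q

theorem wS_add (S : Set P) (μ ν : P → ℝ) : wS S (μ + ν) = wS S μ + wS S ν := by
  simp [wS, mul_add, Finset.sum_add_distrib]

theorem wS_smul (S : Set P) (r : ℝ) (μ : P → ℝ) : wS S (r • μ) = r * wS S μ := by
  simp only [wS, Finset.mul_sum, Pi.smul_apply, smul_eq_mul]
  exact Finset.sum_congr rfl fun _ _ => by ring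

/-- the weight as a continuous linear map -/
def wL (S : Set P) : (P → ℝ) →L[ℝ] ℝ :=
  LinearMap.toContinuousLinearMap { toFun := wS S, map_add' := wS_add S, map_smul' := wS_smul S }

@[simp] theorem wL_apply (S : Set P) (μ : P → ℝ) : wL S μ = wS S μ := rfl

theorem wS_sub (S : Set P) (μ ν : P → ℝ) : wS S (μ - ν) = wS S μ - wS S ν := (wL S).map_sub μ ν

@[simp] theorem wS_e (S : Set P) (s : P) : wS S (e s) = io S s := by simp [wS, e_apply]

theorem wS_nonneg (h : ∀ q, 0 ≤ μ q) (S : Set P) : 0 ≤ wS S μ :=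
  Finset.sum_nonneg fun q _ => mul_nonneg (io_nonneg S q) (h q)

theorem wS_mono (h : ∀ q, 0 ≤ μ q) (hs : ∀ q, μ q ≠ 0 → q ∈ S → q ∈ T) : wS S μ ≤ wS T μ :=
  Finset.sum_le_sum fun q _ => by
    by_cases h0 : μ q = 0
    · simp [h0]
    by_cases h1 : q ∈ S
    · rw [io_mem h1, io_mem (hs q h0 h1)]
    · rw [io_not h1, zero_mul]; exact mul_nonneg (io_nonneg _ _) (h q)

theorem wS_congr (hs : ∀ q, μ q ≠ 0 → (q ∈ S ↔ q ∈ T)) : wS S μ = wS T μ :=
  Finset.sum_congr rfl fun q _ => by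
    by_cases h0 : μ q = 0
    · simp [h0]
    · simp only [io, hs q h0]

theorem wS_le_wS (h : ∀ q ∈ S, μ q ≤ ν q) : wS S μ ≤ wS S ν :=
  Finset.sum_le_sum fun q _ => by
    by_cases h1 : q ∈ S
    · rw [io_mem h1, one_mul, one_mul]; exact h q h1
    · simp [io_not h1]

theorem wS_compl (S : Set P) (μ : P → ℝ) : wS Sᶜ μ = ∑ q, μ q - wS S μ := by
  rw [wS, wS, ← Finset.sum_sub_distrib]
  exact Finset.sum_congr rfl fun q _ => by by_cases h : q ∈ S <;> simp [io, h]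

theorem wS_le_sum (h : ∀ q, 0 ≤ μ q) (S : Set P) : wS S μ ≤ ∑ q, μ q := by
  linarith [wS_compl S μ, wS_nonneg h Sᶜ]

theorem wS_union_inter (S T : Set P) (μ : P → ℝ) :
    wS (S ∪ T) μ + wS (S ∩ T) μ = wS S μ + wS T μ := by
  simp only [wS, ← Finset.sum_add_distrib]
  exact Finset.sum_congr rfl fun q _ => by
    by_cases h : q ∈ S <;> by_cases h' : q ∈ T <;> simp [io, h, h']

theorem wS_zero (h : ∀ q ∈ S, μ q = 0) : wS S μ = 0 :=
  Finset.sum_eq_zero fun q _ => by by_cases h1 : q ∈ S <;> simp [io, h1, h]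

theorem wS_union_le (h : ∀ q, 0 ≤ μ q) (S T : Set P) : wS (S ∪ T) μ ≤ wS S μ + wS T μ := by
  linarith [wS_union_inter S T μ, wS_nonneg h (S ∩ T)]

theorem wS_union (h : ∀ q ∈ S, q ∈ T → μ q = 0) : wS (S ∪ T) μ = wS S μ + wS T μ := by
  linarith [wS_union_inter S T μ, wS_zero (S := S ∩ T) (μ := μ) fun q hq => h q hq.1 hq.2]

theorem le_wS (h : ∀ q, 0 ≤ μ q) {q : P} (hq : q ∈ S) : μ q ≤ wS S μ := by
  have := Finset.single_le_sum (f := fun q => io S q * μ q)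
    (fun q _ => mul_nonneg (io_nonneg S q) (h q)) (Finset.mem_univ q)
  rwa [io_mem hq, one_mul] at this

theorem wS_le_card (hc : 0 ≤ c) (h : ∀ q ∈ S, μ q ≤ c) : wS S μ ≤ Fintype.card P * c := by
  rw [← Finset.card_univ, ← nsmul_eq_mul, ← Finset.sum_const]
  refine Finset.sum_le_sum fun q _ => ?_
  by_cases h1 : q ∈ S
  · rw [io_mem h1, one_mul]; exact h q h1
  · simpa [io_not h1] using hc

theorem exists_gt (hc : 0 ≤ c) (h : Fintype.card P * c < wS S μ) : ∃ q ∈ S, c < μ q := by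
  by_contra! hn
  exact h.not_ge (wS_le_card hc hn)

theorem wS_le_add (h : ∀ q, |μ q - ν q| < c) (hc : 0 ≤ c) (S : Set P) :
    wS S μ ≤ wS S ν + Fintype.card P * c := by
  have := wS_le_card (S := S) (μ := μ - ν) hc fun q _ => (abs_lt.1 (h q)).2.le
  rw [wS_sub] at this
  linarith

/-- gathering weight `c` at `b` -/
def gw (b : P) (c : P → ℝ) : P → ℝ := (∑ q, c q) • e b - c

theorem sum_gw (b : P) (c : P → ℝ) : ∑ q, gw b c q = 0 := by
  simp [gw, Finset.sum_sub_distrib, ← Finset.mul_sum]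

theorem wS_gw (S : Set P) (b : P) (c : P → ℝ) : wS S (gw b c) = (∑ q, c q) * io S b - wS S c := by
  rw [gw, wS_sub, wS_smul, wS_e]

theorem gw_ne {b q : P} (c : P → ℝ) (h : q ≠ b) : gw b c q = -c q := by simp [gw, e_apply, h]

theorem gw_self (b : P) (c : P → ℝ) : gw b c b = ∑ q, c q - c b := by simp [gw, e_apply]

theorem pt_gw {E : Type} [NormedAddCommGroup E] [NormedSpace ℝ E] (X : P → E) (b : P) (c : P → ℝ) :
    pt X (gw b c) = ∑ q, c q • (X b - X q) := by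
  rw [gw, pt_sub, pt_smul, pt_e, pt, Finset.sum_smul, ← Finset.sum_sub_distrib]
  simp only [smul_sub]

end weights

variable {E : Type} [NormedAddCommGroup E] [NormedSpace ℝ E]
  {P : Type} [PartialOrder P] [Fintype P]

theorem _root_.Crest.Agent.X212.Sm10.IsWt.cm {l : P → ℝ} (h : IsWt l) {s t : P} (hs : l s ≠ 0)
    (ht : l t ≠ 0) : Cm s t :=
  h.chain.total (show s ∈ support l from hs) (show t ∈ support l from ht)

theorem isWt_of {l : P → ℝ} (h0 : ∀ s, 0 ≤ l s) (h1 : ∑ s, l s = 1)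
    (h2 : ∀ s t, l s ≠ 0 → l t ≠ 0 → Cm s t) : IsWt l := ⟨⟨h0, fun s hs t ht _ => h2 s t hs ht⟩, h1⟩

variable (E) in
/-- lifted coordinates -/
structure LC (A : Set P) (δ : ℝ) where
  U : Set E
  X : P → E
  lam : E → P → ℝ
  mu : E → P → ℝ
  δ0 : 0 < δ
  small : Fintype.card P * δ ≤ 1 / 100
  conv : A.OrdConnected
  isOpen : IsOpen U
  cont : ContinuousOn lam U
  smooth : ContDiffOn ℝ ∞ mu U
  wt : ∀ y ∈ U, IsWt (lam y)
  pos : ∀ y ∈ U, pt X (lam y) = y
  real : ∀ ν, IsWt ν → wS Aᶜ ν ≤ 1 / 6 → pt X ν ∈ U ∧ lam (pt X ν) = ν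
  nonneg : ∀ y ∈ U, ∀ q, 0 ≤ mu y q
  sum_one : ∀ y ∈ U, ∑ q, mu y q = 1
  close : ∀ y ∈ U, ∀ q, |mu y q - lam y q| < δ
  supp : ∀ y ∈ U, ∀ q t, mu y q ≠ 0 → δ ≤ lam y t → Cm q t
  der : ∀ y ∈ U, ∀ w, Tg δ (lam y) w → fderiv ℝ mu y (pt X w) = w
  hv : ∀ y ∈ U, wS Aᶜ (mu y) < 1 / 4

theorem Op_dual (A : Set P) : Op (P := Pᵒᵈ) A = Om A := rfl
theorem Om_dual (A : Set P) : Om (P := Pᵒᵈ) A = Op A := rfl

namespace LC

variable {A : Set P} {δ : ℝ} (L : LC E A δ)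

/-- the same coordinates for the opposite order -/
def dual : LC E (P := Pᵒᵈ) A δ where
  U := L.U
  X := L.X
  lam := L.lam
  mu := L.mu
  δ0 := L.δ0
  small := L.small
  conv := L.conv.dual
  isOpen := L.isOpen
  cont := L.cont
  smooth := L.smooth
  wt y hy := isWt_of (L.wt y hy).nonneg (L.wt y hy).sum fun _ _ hs ht => ((L.wt y hy).cm hs ht).symm
  pos := L.pos
  real ν hν := L.real ν (isWt_of hν.nonneg hν.sum fun _ _ hs ht => (hν.cm hs ht).symm)
  nonneg := L.nonneg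
  sum_one := L.sum_one
  close := L.close
  supp y hy q t h1 h2 := (L.supp y hy q t h1 h2).symm
  der := L.der
  hv := L.hv

/-- the smooth weight of a set of vertices -/
def w (S : Set P) (y : E) : ℝ := wS S (L.mu y)

/-- the weight of `O₊` -/
def p : E → ℝ := L.w (Op A)

/-- the weight of `O₋` -/
def m : E → ℝ := L.w (Om A)

theorem dual_p : L.dual.p = L.m := rfl
theorem dual_m : L.dual.m = L.p := rfl

/-- `q` is a big vertex at `y` -/
def Big (y : E) (q : P) : Prop := 2 * δ < L.mu y q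

/-- `v` moves weight upwards between big vertices -/
def Fld (v : E → E) : Prop := ∀ y ∈ L.U, ∃ c : P → P → ℝ, (∀ s t, 0 ≤ c s t) ∧
  (∀ s t, c s t ≠ 0 → s < t ∧ L.Big y s ∧ L.Big y t) ∧
  (∀ s t, s < t → L.Big y s → L.Big y t → 0 < c s t) ∧ v y = ∑ s, ∑ t, c s t • (L.X t - L.X s)

variable {L} {y : E} {q s t b : P} {S : Set P}

theorem lam_lt (hy : y ∈ L.U) (q : P) : L.lam y q < L.mu y q + δ := by
  linarith [(abs_lt.1 (L.close y hy q)).1]

theorem mu_lt (hy : y ∈ L.U) (q : P) : L.mu y q < L.lam y q + δ := by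
  linarith [(abs_lt.1 (L.close y hy q)).2]

theorem Big.le (h : L.Big y q) (hy : y ∈ L.U) : δ ≤ L.lam y q := by
  linarith [mu_lt hy q, show 2 * δ < L.mu y q from h]

theorem ne_of_le (h : δ ≤ L.lam y q) : L.lam y q ≠ 0 := (L.δ0.trans_le h).ne'

theorem cm_of_le (hy : y ∈ L.U) (hs : δ ≤ L.lam y s) (ht : δ ≤ L.lam y t) : Cm s t :=
  (L.wt y hy).cm (ne_of_le hs) (ne_of_le ht)

theorem w_le (hy : y ∈ L.U) (S : Set P) : L.w S y ≤ wS S (L.lam y) + Fintype.card P * δ :=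
  wS_le_add (L.close y hy) L.δ0.le S

theorem le_w (hy : y ∈ L.U) (S : Set P) : wS S (L.lam y) ≤ L.w S y + Fintype.card P * δ :=
  wS_le_add (fun q => by rw [abs_sub_comm]; exact L.close y hy q) L.δ0.le S

theorem w_nonneg (hy : y ∈ L.U) (S : Set P) : 0 ≤ L.w S y := wS_nonneg (L.nonneg y hy) S

theorem w_compl (hy : y ∈ L.U) (S : Set P) : L.w Sᶜ y = 1 - L.w S y := by
  rw [w, wS_compl, L.sum_one y hy, w]

theorem w_le_one (hy : y ∈ L.U) (S : Set P) : L.w S y ≤ 1 := by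
  linarith [w_compl hy S, w_nonneg hy Sᶜ]

theorem exists_big (h : 2 * (Fintype.card P * δ) < L.w S y) : ∃ q ∈ S, L.Big y q :=
  exists_gt (c := 2 * δ) (by linarith [L.δ0]) (by rw [w] at h; linarith)

theorem exists_bigA (hy : y ∈ L.U) : ∃ b ∈ A, L.Big y b := by
  refine exists_big ?_
  have h1 : L.w Aᶜ y < 1 / 4 := L.hv y hy
  linarith [w_compl hy A, L.small]

theorem contDiffOn_w (L : LC E A δ) (S : Set P) : ContDiffOn ℝ ∞ (L.w S) L.U :=
  (wL S).contDiff.comp_contDiffOn L.smooth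

theorem diff (hy : y ∈ L.U) {F : Type} [NormedAddCommGroup F] [NormedSpace ℝ F] {f : E → F}
    (hf : ContDiffOn ℝ ∞ f L.U) : DifferentiableAt ℝ f y :=
  (hf.contDiffAt (L.isOpen.mem_nhds hy)).differentiableAt (by simp)

theorem fderiv_w (hy : y ∈ L.U) (hs : δ ≤ L.lam y s) (ht : δ ≤ L.lam y t) (S : Set P) :
    fderiv ℝ (L.w S) y (L.X t - L.X s) = io S t - io S s := by
  have h1 := ((wL S).hasFDerivAt.comp y (diff hy L.smooth).hasFDerivAt).fderiv
  have h2 := L.der y hy (e t - e s) ⟨by simp, fun r hr => by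
    by_cases a : r = t
    · exact a ▸ ht
    by_cases b : r = s
    · exact b ▸ hs
    simp [e_apply, a, b] at hr⟩
  rw [pt_sub, pt_e, pt_e] at h2
  rw [show fderiv ℝ (L.w S) y = _ from h1, ContinuousLinearMap.comp_apply, h2, wL_apply, wS_sub,
    wS_e, wS_e]

/-- a vertex of the support off `A` is in `O₊` or in `O₋` -/
theorem w_not (hy : y ∈ L.U) : L.w Aᶜ y = L.p y + L.m y := by
  obtain ⟨b, hb, hB⟩ := exists_bigA hy
  rw [p, m, w, w, w, ← wS_union fun q h1 h2 => ?_]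
  · refine wS_congr fun q hq => ⟨fun h => ?_, fun h => h.elim (·.1) (·.1)⟩
    exact (L.supp y hy q b hq (hB.le hy)).elim (fun k => .inr ⟨h, b, hb, k⟩) fun k => .inl ⟨h, b, hb, k⟩
  · obtain ⟨h, a, ha, h3⟩ := h1
    obtain ⟨-, a', ha', h4⟩ := h2
    exact absurd (L.conv.out ha ha' ⟨h3, h4⟩) h

theorem isCompact_K (L : LC E A δ) {c : ℝ} (hc : c ≤ 1 / 14) :
    IsCompact {y | y ∈ L.U ∧ L.p y ≤ c ∧ L.m y ≤ c} := by
  have hK : IsCompact (pt L.X '' (Wt P ∩ {ν | wS Aᶜ ν ≤ 1 / 6})) :=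
    (isCompact_Wt.inter_right (isClosed_le (wL Aᶜ).continuous continuous_const)).image
      (ptL L.X).continuous
  have hU : pt L.X '' (Wt P ∩ {ν | wS Aᶜ ν ≤ 1 / 6}) ⊆ L.U := by
    rintro _ ⟨ν, h, rfl⟩
    exact (L.real ν h.1 h.2).1
  have := ((((L.contDiffOn_w (Op A)).continuousOn.prodMk
    (L.contDiffOn_w (Om A)).continuousOn).mono hU).preimage_isClosed_of_isClosed hK.isClosed
    ((isClosed_Iic (a := c)).prod (isClosed_Iic (a := c))))
  refine hK.of_isClosed_subset ?_ ?_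
  · convert this using 1
    refine Subset.antisymm (fun y h => ⟨⟨_, ⟨L.wt y h.1, ?_⟩, L.pos y h.1⟩, h.2⟩) fun y h => ⟨hU h.1, h.2⟩
    show wS Aᶜ (L.lam y) ≤ _
    linarith [le_w h.1 Aᶜ, w_not h.1, h.2.1, h.2.2, L.small]
  · intro y h
    refine ⟨_, ⟨L.wt y h.1, ?_⟩, L.pos y h.1⟩
    show wS Aᶜ (L.lam y) ≤ _
    linarith [le_w h.1 Aᶜ, w_not h.1, h.2.1, h.2.2, L.small]

theorem Fld.nonneg {v : E → E} (h : L.Fld v) (hy : y ∈ L.U) {l : E →L[ℝ] ℝ}
    (hl : ∀ s t, s < t → L.Big y s → L.Big y t → 0 ≤ l (L.X t - L.X s)) : 0 ≤ l (v y) := by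
  obtain ⟨c, h0, h1, -, h3⟩ := h y hy
  simp only [h3, map_sum, map_smul, smul_eq_mul]
  refine Finset.sum_nonneg fun s _ => Finset.sum_nonneg fun t _ => ?_
  by_cases k : c s t = 0
  · simp [k]
  · exact mul_nonneg (h0 s t) (hl s t (h1 s t k).1 (h1 s t k).2.1 (h1 s t k).2.2)

theorem Fld.pos {v : E → E} (h : L.Fld v) (hy : y ∈ L.U) {l : E →L[ℝ] ℝ}
    (hl : ∀ s t, s < t → L.Big y s → L.Big y t → 0 ≤ l (L.X t - L.X s)) (hst : s < t)
    (hs : L.Big y s) (ht : L.Big y t) (hp : 0 < l (L.X t - L.X s)) : 0 < l (v y) := by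
  obtain ⟨c, h0, h1, h2, h3⟩ := h y hy
  simp only [h3, map_sum, map_smul, smul_eq_mul]
  have nn : ∀ s t, 0 ≤ c s t * l (L.X t - L.X s) := fun s t => by
    by_cases k : c s t = 0
    · simp [k]
    · exact mul_nonneg (h0 s t) (hl s t (h1 s t k).1 (h1 s t k).2.1 (h1 s t k).2.2)
  exact Finset.sum_pos' (fun s _ => Finset.sum_nonneg fun t _ => nn s t) ⟨s, Finset.mem_univ _,
    Finset.sum_pos' (fun t _ => nn s t) ⟨t, Finset.mem_univ _, mul_pos (h2 s t hst hs ht) hp⟩⟩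

theorem Fld.dual {v : E → E} (h : L.Fld v) : L.dual.Fld (-v) := fun y hy => by
  obtain ⟨c, h0, h1, h2, h3⟩ := h y hy
  refine ⟨fun s t => c t s, fun s t => h0 t s, fun s t k => ⟨(h1 _ _ k).1, (h1 _ _ k).2.2, (h1 _ _ k).2.1⟩,
    fun s t k a b => h2 _ _ k b a, ?_⟩
  rw [Pi.neg_apply, h3, Finset.sum_comm, ← Finset.sum_neg_distrib]
  refine Finset.sum_congr rfl fun s _ => ?_
  rw [← Finset.sum_neg_distrib]
  exact Finset.sum_congr rfl fun t _ => by rw [← smul_neg, neg_sub]; rfl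

/-- the weight of a set which is upper on the big vertices increases -/
theorem Fld.w_nonneg {v : E → E} (h : L.Fld v) (hy : y ∈ L.U)
    (hS : ∀ s t, s < t → L.Big y s → L.Big y t → s ∈ S → t ∈ S) : 0 ≤ fderiv ℝ (L.w S) y (v y) :=
  h.nonneg hy fun s t a b c => by
    rw [fderiv_w hy (b.le hy) (c.le hy), sub_nonneg]
    by_cases k : s ∈ S
    · rw [io_mem k, io_mem (hS s t a b c k)]
    · rw [io_not k]; exact io_nonneg _ _

theorem Fld.w_pos {v : E → E} (h : L.Fld v) (hy : y ∈ L.U)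
    (hS : ∀ s t, s < t → L.Big y s → L.Big y t → s ∈ S → t ∈ S)
    (h1 : 2 * (Fintype.card P * δ) < L.w S y) (h2 : L.w S y < 1 - 2 * (Fintype.card P * δ)) :
    0 < fderiv ℝ (L.w S) y (v y) := by
  obtain ⟨t, ht, bt⟩ := exists_big h1
  obtain ⟨s, hs, bs⟩ := exists_big (L := L) (S := Sᶜ) (y := y) (by linarith [w_compl hy S])
  have hst : s < t := by
    rcases cm_of_le hy (bs.le hy) (bt.le hy) with k | k
    · exact k.lt_of_ne fun e => hs (e ▸ ht)
    · exact absurd (hS t s (k.lt_of_ne fun e => hs (e ▸ ht)) bt bs ht) hs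
  refine h.pos hy (fun s t a b c => ?_) hst bs bt ?_
  · rw [fderiv_w hy (b.le hy) (c.le hy), sub_nonneg]
    by_cases k : s ∈ S
    · rw [io_mem k, io_mem (hS s t a b c k)]
    · rw [io_not k]; exact io_nonneg _ _
  · rw [fderiv_w hy (bs.le hy) (bt.le hy), io_mem ht, io_not hs]; norm_num

/-! ### straight moves -/

/-- PL segments between weights on a common chain -/
theorem real_seg (L : LC E A δ) {ν ν' : P → ℝ} (h : IsWt ν) (h' : IsWt ν')
    (hc : ∀ s t, ν s ≠ 0 → ν' t ≠ 0 → Cm s t) (k : wS Aᶜ ν ≤ 1 / 6) (k' : wS Aᶜ ν' ≤ 1 / 6) {τ : ℝ}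
    (hτ : τ ∈ Icc (0 : ℝ) 1) : pt L.X ν + τ • pt L.X (ν' - ν) ∈ L.U ∧
      L.lam (pt L.X ν + τ • pt L.X (ν' - ν)) = ν + τ • (ν' - ν) := by
  rw [← pt_smul, ← pt_add]
  have e1 : ∀ s, (ν + τ • (ν' - ν)) s = (1 - τ) * ν s + τ * ν' s := fun s => by simp; ring
  refine L.real _ (isWt_of (fun s => ?_) ?_ fun s t hs ht => ?_) ?_
  · rw [e1]; exact add_nonneg (mul_nonneg (sub_nonneg.2 hτ.2) (h.nonneg s)) (mul_nonneg hτ.1 (h'.nonneg s))
  · simp only [e1, Finset.sum_add_distrib, ← Finset.mul_sum, h.sum, h'.sum]; ring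
  · have a : ∀ s, (ν + τ • (ν' - ν)) s ≠ 0 → ν s ≠ 0 ∨ ν' s ≠ 0 := fun s hs => by
      by_contra! n
      exact hs (by rw [e1, n.1, n.2]; simp)
    rcases a s hs with a1 | a1 <;> rcases a t ht with b | b
    exacts [h.cm a1 b, hc s t a1 b, (hc t s b a1).symm, h'.cm a1 b]
  · rw [wS_add, wS_smul, wS_sub]
    nlinarith [hτ.1, hτ.2]

/-- gathering at a vertex is a straight move which the smooth coordinates follow exactly -/
theorem seg (hy : y ∈ L.U) {c : P → ℝ} (hb : δ ≤ L.lam y b) (h0 : ∀ q, 0 ≤ c q)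
    (hc : ∀ q, c q ≠ 0 → δ + c q ≤ L.lam y q) (k : wS Aᶜ (L.lam y) ≤ 1 / 6)
    (k' : wS Aᶜ (L.lam y + gw b c) ≤ 1 / 6) :
    (∀ τ ∈ Icc (0 : ℝ) 1, y + τ • pt L.X (gw b c) ∈ L.U ∧
      L.lam (y + τ • pt L.X (gw b c)) = L.lam y + τ • gw b c ∧
      L.mu (y + τ • pt L.X (gw b c)) = L.mu y + τ • gw b c) ∧
    ∀ f : E → ℝ, ContDiffOn ℝ ∞ f L.U → (∀ x ∈ L.U, ∀ q, c q ≠ 0 → δ ≤ L.lam x q → δ ≤ L.lam x b →
      0 ≤ fderiv ℝ f x (L.X b - L.X q)) → ∀ τ ∈ Icc (0 : ℝ) 1, f y ≤ f (y + τ • pt L.X (gw b c)) := by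
  have s0 : ∀ q, c q ≤ ∑ q, c q := fun q =>
    Finset.single_le_sum (fun q _ => h0 q) (Finset.mem_univ q)
  have g1 : ∀ q, -c q ≤ gw b c q := fun q => by
    by_cases a : q = b
    · rw [a, gw_self]; linarith [s0 b, h0 b]
    · rw [gw_ne c a]
  have g2 : ∀ τ ∈ Icc (0 : ℝ) 1, ∀ q, q = b ∨ c q ≠ 0 → δ ≤ (L.lam y + τ • gw b c) q := by
    rintro τ hτ q (rfl | a)
    · simp only [Pi.add_apply, Pi.smul_apply, smul_eq_mul, gw_self]
      nlinarith [hτ.1, s0 q]
    · simp only [Pi.add_apply, Pi.smul_apply, smul_eq_mul]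
      nlinarith [hτ.1, hτ.2, g1 q, hc q a, h0 q]
  have g3 : ∀ q, gw b c q ≠ 0 → q = b ∨ c q ≠ 0 := fun q h => by
    by_contra! n
    exact h (by rw [gw_ne c n.1, n.2, neg_zero])
  have g4 : ∀ q, (L.lam y + gw b c) q ≠ 0 → L.lam y q ≠ 0 := fun q h => by
    by_cases a : gw b c q = 0
    · simpa [a] using h
    · simpa using ne_of_le (L := L) (by simpa using g2 0 (left_mem_Icc.2 zero_le_one) q (g3 q a))
  have hW : IsWt (L.lam y + gw b c) := isWt_of (fun q => by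
      by_cases a : gw b c q = 0
      · simpa [a] using (L.wt y hy).nonneg q
      · simpa using L.δ0.le.trans (g2 1 (right_mem_Icc.2 zero_le_one) q (g3 q a)))
    (by simp [Finset.sum_add_distrib, sum_gw, (L.wt y hy).sum])
    fun s t hs ht => (L.wt y hy).cm (g4 s hs) (g4 t ht)
  have r := fun τ hτ => L.real_seg (L.wt y hy) hW (fun s t hs ht => (L.wt y hy).cm hs (g4 t ht)) k k'
    (τ := τ) hτ
  simp only [add_sub_cancel_left, L.pos y hy] at r
  have hd : ∀ τ : ℝ, HasDerivAt (fun τ : ℝ => y + τ • pt L.X (gw b c)) (pt L.X (gw b c)) τ := fun τ => by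
    simpa using ((hasDerivAt_id τ).smul_const (pt L.X (gw b c))).const_add y
  refine ⟨fun τ hτ => ⟨(r τ hτ).1, (r τ hτ).2, ?_⟩, fun f hf h τ hτ => ?_⟩
  · have d : ∀ τ ∈ Icc (0 : ℝ) 1,
        HasDerivAt (fun τ : ℝ => L.mu (y + τ • pt L.X (gw b c)) - τ • gw b c) 0 τ := fun τ hτ => by
      have := ((diff (r τ hτ).1 L.smooth).hasFDerivAt.comp_hasDerivAt τ (hd τ)).sub
        ((hasDerivAt_id τ).smul_const (gw b c))
      rw [L.der _ (r τ hτ).1 _ ⟨sum_gw b c, fun q hq => by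
        rw [(r τ hτ).2]; exact g2 τ hτ q (g3 q hq)⟩, one_smul, sub_self] at this
      exact this
    have := constant_of_has_deriv_right_zero (fun τ hτ => (d τ hτ).continuousAt.continuousWithinAt)
      (fun τ hτ => (d τ (Ico_subset_Icc_self hτ)).hasDerivWithinAt) τ hτ
    simp only [zero_smul, add_zero, sub_zero] at this
    rw [← this, sub_add_cancel]
  · have d : ∀ τ ∈ Icc (0 : ℝ) 1, HasDerivAt (fun τ : ℝ => f (y + τ • pt L.X (gw b c)))
        (fderiv ℝ f (y + τ • pt L.X (gw b c)) (pt L.X (gw b c))) τ := fun τ hτ =>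
      (diff (r τ hτ).1 hf).hasFDerivAt.comp_hasDerivAt τ (hd τ)
    have := monotoneOn_of_deriv_nonneg (convex_Icc (0 : ℝ) 1)
      (fun τ hτ => (d τ hτ).continuousAt.continuousWithinAt)
      (fun τ hτ => (d τ (interior_subset hτ)).differentiableAt.differentiableWithinAt)
      (fun τ hτ => by
        have hτ := interior_subset hτ
        rw [(d τ hτ).deriv]
        generalize hx : y + τ • pt L.X (gw b c) = x
        rw [pt_gw, map_sum]
        refine Finset.sum_nonneg fun q _ => ?_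
        by_cases a : c q = 0
        · simp [a]
        rw [map_smul, smul_eq_mul]
        refine mul_nonneg (h0 q) (h x (hx ▸ (r τ hτ).1) q a ?_ ?_)
        · rw [← hx, (r τ hτ).2]; exact g2 τ hτ q (.inr a)
        · rw [← hx, (r τ hτ).2]; exact g2 τ hτ b (.inl rfl))
      (left_mem_Icc.2 zero_le_one) hτ hτ.1
    simpa using this

end LC

/-! ### the base -/

section base

variable [FiniteDimensional ℝ E] {R : Real P E} {W : Set E} {δ : ℝ} {A : Set P}

/-- the coordinates of a realisation -/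
def LC.base (M : Mol (bary R) W δ) (hδ : 0 < δ) (hs : Fintype.card P * δ ≤ 1 / 100)
    (hA : A.OrdConnected) (hW : IsOpen W) (hB : W ⊆ interior R.B)
    (hK : ∀ ν, IsWt ν → wS Aᶜ ν ≤ 1 / 6 → pt R.x ν ∈ W) : LC E A δ where
  U := W ∩ {y | wS Aᶜ (M.Λ y) < 1 / 4}
  X := R.x
  lam := R.wt
  mu := M.Λ
  δ0 := hδ
  small := hs
  conv := hA
  isOpen := hW.inter (isOpen_lt ((wL Aᶜ).continuous.comp M.smooth.continuous) continuous_const)
  cont := R.continuousOn_wt.mono fun _ h => interior_subset (hB h.1)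
  smooth := M.smooth.contDiffOn
  wt _ h := Real.wt_mem (interior_subset (hB h.1))
  pos _ h := Real.cmb_wt (interior_subset (hB h.1))
  real ν h k := by
    have e1 : R.wt (pt R.x ν) = ν := Real.wt_cmb h
    refine ⟨⟨hK ν h k, ?_⟩, e1⟩
    have := wS_le_add (M.close _ (hK ν h k)) hδ.le Aᶜ
    rw [bary_lam, e1] at this
    show wS _ _ < _
    linarith
  nonneg y _ := M.nonneg y
  sum_one y h := M.sum_one y h.1
  close y h := M.close y h.1
  supp y h q t h1 h2 := by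
    obtain ⟨σ, k1, k2, k3⟩ := M.supp y h.1 q h1
    exact IsChain.total k1 (Finset.mem_coe.2 k2) (Finset.mem_coe.2 (k3 t h2))
  der y h := M.der y h.1
  hv _ h := h.2

theorem LC.base_fld (M : Mol (bary R) W δ) (hδ : 0 < δ) (hs : Fintype.card P * δ ≤ 1 / 100)
    (hA : A.OrdConnected) (hW : IsOpen W) (hB : W ⊆ interior R.B)
    (hK : ∀ ν, IsWt ν → wS Aᶜ ν ≤ 1 / 6 → pt R.x ν ∈ W) :
    (LC.base M hδ hs hA hW hB hK).Fld (M.fld fun _ _ => 1) := fun y _ =>
  ⟨rate (fun _ _ => 1) δ (M.Λ y), rate_nonneg (fun _ _ => zero_le_one) hδ _,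
    fun _ _ h => ⟨(rate_ne hδ h).1, (rate_ne hδ h).2.2⟩,
    fun _ _ h hs ht => rate_pos hδ h zero_lt_one hs ht, by
      simp only [Mol.fld, upV, pt_sum, pt_smul, pt_sub, pt_e]
      rfl⟩

end base

end Crest.Agent.X212.Mol27
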