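import Crest.Agent.X212.Mol27.Cond

/-!
# X212 / Mol27 (helper27): points of both colours walk to the suture
-/

set_option autoImplicit false
set_option linter.unusedSectionVars false

open Set Filter Topology Function Metric Classical
open scoped ContDiff NNReal Real
open Crest.Agent.X212.Sm10 Crest.Agent.X212.Hp13 Crest.Agent.X212.Alg36

noncomputable section

namespace Crest.Agent.X212.Mol27

variable {E : Type} [NormedAddCommGroup E] [NormedSpace ℝ E]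
  {P : Type} [PartialOrder P] [Fintype P] {A : Set P} {z : P → P → ℤ} {δ a0 a α : ℝ}
  {L : LC E A δ} {tp tn : E → ℝ} {y : E} {b : P}

theorem join_seg {T : Set E} {w : E} (h : ∀ τ ∈ Icc (0 : ℝ) 1, y + τ • w ∈ T) :
    JoinedIn T y (y + w) :=
  JoinedIn.ofLine (f := fun τ : ℝ => y + τ • w) (by fun_prop) (by simp) (by simp)
    (by rintro _ ⟨τ, hτ, rfl⟩; exact h τ hτ)

namespace Stg

variable (S : Stg a0 a α L tp tn)
include S

theorem sixth' (hy : y ∈ BB α L tp tn) : wS Aᶜ (L.lam y) ≤ 1 / 7 := by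
  linarith [LC.le_w hy.1 Aᶜ, LC.w_not hy.1, S.p_le hy, S.m_le hy, L.small, S.hi, S.k10, kap_nonneg L]

theorem adj1 (hy : y ∈ BB α L tp tn) (h0 : 0 < tp y) (hb : b ∈ A) (g : δ ≤ L.lam y b) :
    ∃ y', wS (Op A) (L.lam y') ≤ a + α ∧ wS (Om A) (L.lam y') = wS (Om A) (L.lam y) ∧
      1 / 2 ≤ L.lam y' b ∧
      JoinedIn {x | x ∈ BB α L tp tn ∧ 0 < tp x ∧ tn y ≤ tn x ∧ δ ≤ L.lam x b} y y' := by
  have k0 := kap_nonneg L
  have k1 := S.k10
  have k2 := S.lo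
  have k3 := S.hi
  have k5 := L.δ0
  have hW := L.wt y hy.1
  set d : P → ℝ := fun q => max (L.lam y q - δ) 0 with hd
  have d0 : ∀ q, 0 ≤ d q := fun q => le_max_right _ _
  have d1 : wS (Op A) (L.lam y) - Fintype.card P * δ ≤ wS (Op A) d := by
    have := wS_le_card (S := Op A) (μ := L.lam y - d) k5.le fun q _ => by
      linarith [le_max_left (L.lam y q - δ) 0, show (L.lam y - d) q = L.lam y q - d q from rfl]
    rw [wS_sub] at this
    linarith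
  obtain ⟨θ, t0, t1, t2, t3⟩ : ∃ θ : ℝ, 0 ≤ θ ∧ θ ≤ 1 ∧ wS (Op A) (L.lam y) - θ * wS (Op A) d ≤ a + α ∧
      (θ = 0 ∨ a + α ≤ wS (Op A) (L.lam y) - θ * wS (Op A) d) := by
    rcases le_or_gt (wS (Op A) (L.lam y)) (a + α) with n | n
    · exact ⟨0, le_rfl, zero_le_one, by simpa using n, .inl rfl⟩
    · have p0 : 0 < wS (Op A) d := by linarith
      refine ⟨(wS (Op A) (L.lam y) - (a + α)) / wS (Op A) d, div_nonneg (by linarith) p0.le,
        (div_le_one p0).2 (by linarith), ?_, .inr ?_⟩ <;> rw [div_mul_cancel₀ _ p0.ne'] <;> linarith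
  set c : P → ℝ := fun q => if q = b then 0 else if q ∈ Op A then θ * d q else if q ∈ A then d q else 0
    with hc
  have c0 : ∀ q, 0 ≤ c q := fun q => by
    simp only [hc]; split_ifs
    exacts [le_rfl, mul_nonneg t0 (d0 q), d0 q, le_rfl]
  have c1 : ∀ q, c q ≤ d q := fun q => by
    simp only [hc]; split_ifs
    exacts [d0 q, mul_le_of_le_one_left (d0 q) t1, le_rfl, d0 q]
  have c2 : ∀ q, c q ≠ 0 → δ + c q ≤ L.lam y q := fun q h => by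
    have h1 := ((c0 q).lt_of_ne' h).trans_le (c1 q)
    have h2 : d q = L.lam y q - δ := max_eq_left (le_of_lt (by simpa [hd] using h1))
    linarith [c1 q]
  have c3 : wS (Op A) c = θ * wS (Op A) d := by
    rw [← wS_smul]
    refine le_antisymm (wS_le_wS fun q hq => ?_) (wS_le_wS fun q hq => ?_) <;>
      simp [hc, hq, show q ≠ b from fun e => hq.1 (e ▸ hb)]
  have c4 : ∀ q ∈ Om A, c q = 0 := fun q hq => by
    simp [hc, hq.1, show q ∉ Op A from fun n => not_om L.conv n hq]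
  have w1 : ∀ T, b ∉ T → wS T (gw b c) = -wS T c := fun T h => by rw [wS_gw, io_not h]; ring
  have s1 := S.sixth' hy
  have s2 : wS Aᶜ (L.lam y + gw b c) ≤ 1 / 7 := by
    rw [wS_add, w1 Aᶜ fun n => n hb]; linarith [wS_nonneg c0 Aᶜ]
  obtain ⟨r1, r2⟩ := LC.seg hy.1 g c0 c2 (by linarith) (by linarith)
  obtain ⟨v1, v2, -⟩ := r1 1 (right_mem_Icc.2 zero_le_one)
  rw [one_smul] at v1 v2
  rw [one_smul] at v2
  refine ⟨y + pt L.X (gw b c), ?_, ?_, ?_, join_seg fun τ hτ => ?_⟩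
  · rw [v2, wS_add, w1 _ fun n => n.1 hb, c3]
    linarith
  · rw [v2, wS_add, w1 _ fun n => n.1 hb, wS_zero c4, neg_zero, add_zero]
  · have hW' := L.wt _ v1
    have e1 := wS_compl (Aᶜ ∪ {b}) (L.lam (y + pt L.X (gw b c)))
    have e2 : wS (Aᶜ ∪ {b})ᶜ (L.lam (y + pt L.X (gw b c))) ≤ Fintype.card P * δ :=
      wS_le_card k5.le fun q hq => by
        have h1 : q ∈ A := not_not.1 fun n => hq (.inl n)
        have h2 : q ≠ b := fun n => hq (.inr n)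
        rw [v2, Pi.add_apply, gw_ne c h2]
        simp only [hc, if_neg h2, if_neg (show q ∉ Op A from fun n => n.1 h1), if_pos h1]
        linarith [le_max_left (L.lam y q - δ) 0]
    have e3 := wS_union_le hW'.nonneg Aᶜ {b}
    have e4 : wS {b} (L.lam (y + pt L.X (gw b c))) = L.lam (y + pt L.X (gw b c)) b := by simp [wS, io]
    rw [hW'.sum] at e1
    rw [← v2] at s2
    linarith [L.small]
  obtain ⟨u1, u2, u3⟩ := r1 τ hτ
  refine ⟨⟨u1, le_trans (neg_le_neg_iff.1 (r2 _ S.hp.sm.neg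
      (fun x hx q _ a1 a2 => S.hp.gather_le hb hx a1 a2) τ hτ)) hy.2.1,
    le_trans (neg_le_neg_iff.1 (r2 _ S.hn.sm.neg
      (fun x hx q _ a1 a2 => S.hn.gather_le hb hx a1 a2) τ hτ)) hy.2.2⟩, ?_, ?_, ?_⟩
  · rcases t3 with rfl | t3
    · refine h0.trans_le (r2 _ S.hp.sm (fun x hx q h a1 a2 => ?_) τ hτ)
      exact (S.hp.inv x hx q b a1 a2 (fun n => h (by simp [hc, n])) fun n => n.1 hb).ge
    · refine S.tp_pos u1 ?_
      have := LC.le_w u1 (Op A)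
      rw [u2, wS_add, wS_smul, w1 _ fun n => n.1 hb, c3] at this
      have : [Nonempty P] → 0 < α := S.α_pos
      have := @this ⟨b⟩
      simp only [LC.p]
      nlinarith [hτ.2, mul_nonneg t0 (wS_nonneg d0 (Op A))]
  · exact r2 _ S.hn.sm (fun x hx q h a1 a2 =>
      (S.hn.inv x hx q b a1 a2 (fun n => h (c4 q n)) fun n => n.1 hb).ge) τ hτ
  · rw [u2, Pi.add_apply, Pi.smul_apply, gw_self, smul_eq_mul]
    nlinarith [hτ.1, Finset.single_le_sum (fun q _ => c0 q) (Finset.mem_univ b)]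

theorem adj2 (hy : y ∈ BB α L tp tn) (h0 : 0 < tp y) (hb : b ∈ A) (h1 : wS (Op A) (L.lam y) ≤ a + α)
    (h2 : 1 / 2 ≤ L.lam y b) : ∃ y', wS (Op A) (L.lam y') = a + α ∧
      wS (Om A) (L.lam y') = wS (Om A) (L.lam y) ∧
      JoinedIn {x | x ∈ BB α L tp tn ∧ 0 < tp x ∧ tn y ≤ tn x ∧ δ ≤ L.lam x b} y y' := by
  have k0 := kap_nonneg L
  have k1 := S.k10
  have k2 := S.lo
  have k3 := S.hi
  have k4 := le_kap L b
  have hW := L.wt y hy.1
  obtain ⟨o, ho, g, -⟩ := S.hp.str y hy.1 h0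
  set θ := a + α - wS (Op A) (L.lam y) with hθ
  have t0 : 0 ≤ θ := sub_nonneg.2 h1
  have t1 := wS_nonneg hW.nonneg (Op A)
  have gb : δ ≤ L.lam y b := by linarith
  have hbo := op_lt L.conv hb ho (LC.cm_of_le hy.1 gb (g.le hy.1))
  have w1 : ∀ T, wS T (gw o (θ • e b)) = θ * (io T o - io T b) := fun T => by
    rw [wS_gw, wS_smul, wS_e]
    simp only [Pi.smul_apply, smul_eq_mul, ← Finset.mul_sum, sum_e]
    ring
  have w2 : gw o (θ • e b) b = -θ := by rw [gw_ne _ hbo.ne]; simp [e_apply]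
  have s1 := wS_not hb hW.nonneg (LC.cm_lam hy.1 gb)
  have s2 := LC.le_w hy.1 (Om A)
  have s3 : L.w (Om A) y ≤ _ := S.m_le hy
  have c1 : ∀ q, (θ • e b) q ≠ 0 → q = b := fun q h => by_contra fun n => h (by simp [e_apply, n])
  obtain ⟨r1, r2⟩ := LC.seg (c := θ • e b) hy.1 (g.le hy.1) (fun q => mul_nonneg t0 (e_nonneg _ _))
    (fun q h => by rw [c1 q h]; simp [e_apply]; linarith) (by linarith)
    (by rw [wS_add, w1, io_mem (show o ∈ Aᶜ from ho.1), io_not (S := Aᶜ) fun n => n hb]; linarith)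
  have r3 : ∀ τ : ℝ, wS (Op A) (L.lam y + τ • gw o (θ • e b)) = wS (Op A) (L.lam y) + τ * θ ∧
      wS (Om A) (L.lam y + τ • gw o (θ • e b)) = wS (Om A) (L.lam y) ∧
      (L.lam y + τ • gw o (θ • e b)) b = L.lam y b - τ * θ := fun τ => by
    rw [wS_add, wS_add, wS_smul, wS_smul, w1, w1, io_mem ho, io_not (fun n => n.1 hb),
      io_not (not_om L.conv ho), io_not (fun n => n.1 hb), Pi.add_apply, Pi.smul_apply, w2]
    simp [sub_eq_add_neg]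
  obtain ⟨-, v2, -⟩ := r1 1 (right_mem_Icc.2 zero_le_one)
  obtain ⟨v3, v4, -⟩ := r3 1
  rw [← v2, one_smul] at v3 v4
  refine ⟨_, by linarith, v4, join_seg fun τ hτ => ?_⟩
  obtain ⟨u1, u2, -⟩ := r1 τ hτ
  obtain ⟨u3, -, u5⟩ := r3 τ
  rw [← u2] at u3 u5
  have u6 : τ * θ ≤ θ := mul_le_of_le_one_left t0 hτ.2
  have i1 : ∀ x ∈ L.U, ∀ q, (θ • e b) q ≠ 0 → δ ≤ L.lam x q → δ ≤ L.lam x o →
      fderiv ℝ tn x (L.X o - L.X q) = 0 := fun x hx q h a1 a2 =>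
    S.hn.inv x hx q o a1 a2 (fun n => n.1 (c1 q h ▸ hb)) fun n => not_om L.conv ho n
  refine ⟨⟨u1, S.hp.fat _ u1 ((LC.w_le u1 _).trans (by linarith)), le_trans (neg_le_neg_iff.1
    (r2 _ S.hn.sm.neg (fun x hx q h a1 a2 => ?_) τ hτ)) hy.2.2⟩,
    h0.trans_le (r2 _ S.hp.sm (fun x hx q h a1 a2 => S.hp.mono x hx q o a1 a2 (c1 q h ▸ hbo.le)) τ hτ),
    r2 _ S.hn.sm (fun x hx q h a1 a2 => (i1 x hx q h a1 a2).ge) τ hτ, by linarith⟩
  rw [fderiv_fun_neg, neg_apply, i1 x hx q h a1 a2, neg_zero]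

theorem adj (hy : y ∈ BB α L tp tn) (h0 : 0 < tp y) (hb : b ∈ A) (g : δ ≤ L.lam y b) :
    ∃ y', wS (Op A) (L.lam y') = a + α ∧ wS (Om A) (L.lam y') = wS (Om A) (L.lam y) ∧
      JoinedIn {x | x ∈ BB α L tp tn ∧ 0 < tp x ∧ tn y ≤ tn x ∧ δ ≤ L.lam x b} y y' := by
  obtain ⟨y1, a1, a2, a3, j1⟩ := S.adj1 hy h0 hb g
  have t := j1.target_mem
  obtain ⟨y2, b1, b2, j2⟩ := S.adj2 t.1 t.2.1 hb a1 a3
  exact ⟨y2, b1, b2.trans a2, j1.trans (j2.mono fun x h => ⟨h.1, h.2.1, t.2.2.1.trans h.2.2.1, h.2.2.2⟩)⟩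

/-- points of both colours -/
theorem join_both (hy : y ∈ BB α L tp tn) (h0 : 0 < tp y) (h1 : 0 < tn y) (hb : b ∈ A)
    (g : δ ≤ L.lam y b) : ∃ y' ∈ QQ a α L,
      JoinedIn {x | x ∈ BB α L tp tn ∧ 0 < tp x ∧ 0 < tn x ∧ δ ≤ L.lam x b} y y' := by
  obtain ⟨y1, a1, -, j1⟩ := S.adj hy h0 hb g
  have t := j1.target_mem
  obtain ⟨y2, b1, b2, j2⟩ := S.dual.adj (y := y1) (And.intro t.1.1 ⟨t.1.2.2, t.1.2.1⟩) (h1.trans_le t.2.2.1) hb t.2.2.2
  have t2 : y2 ∈ L.U := j2.target_mem.1.1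
  have e1 : wS (Op A) (L.lam y2) = a + α := b2.trans a1
  have e2 : wS (Om A) (L.lam y2) = a + α := b1
  have k0 := kap_nonneg L
  have k1 := S.k10
  refine ⟨y2, ⟨t2, ⟨?_, ?_⟩, ?_, ?_⟩, JoinedIn.trans (y := y1) (j1.mono fun x h => ?_)
    (j2.mono fun x h => ?_)⟩
  rotate_right 2
  · exact ⟨h.1, h.2.1, h1.trans_le h.2.2.1, h.2.2.2⟩
  · exact ⟨⟨h.1.1, h.1.2.2, h.1.2.1⟩, t.2.1.trans_le h.2.2.1, h.2.1, h.2.2.2⟩
  · simp only [LC.p]; linarith [LC.le_w t2 (Op A)]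
  · simp only [LC.p]; linarith [LC.w_le t2 (Op A)]
  · simp only [LC.m]; linarith [LC.le_w t2 (Om A)]
  · simp only [LC.m]; linarith [LC.w_le t2 (Om A)]

theorem phi_pnt (hz : Zc A z) (hy : y ∈ BB α L tp tn) (hb : b ∈ A) (g : δ ≤ L.lam y b) (k : ℤ) :
    L.phi z (a + 4 * α) y = Circle.exp (2 * π * (k + L.uu z (a + 4 * α) b y)) := by
  have k0 := kap_nonneg L
  have k1 := S.k10
  rw [add_comm (k : ℝ), LC.exp_add_int]
  exact LC.phi_eq hz (by linarith [S.hi]) hy.1 (by linarith [S.p_le hy]) (by linarith [S.m_le hy]) hb g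

/-- **the condition**, in radians -/
theorem join (hz : Cnd A z) : ∃ D : ℝ, ∀ y ∈ BB α L tp tn, ∀ u : ℝ,
    L.phi z (a + 4 * α) y = Circle.exp u → (0 < tp y ∧ u < 0) ∨ (0 < tn y ∧ 0 < u) ∨
      (0 < tp y ∧ 0 < tn y) → ∃ q : E × ℝ, q.1 ∈ QQ a α L ∧ JoinedIn {p : E × ℝ |
        p.1 ∈ BB α L tp tn ∧ L.phi z (a + 4 * α) p.1 = Circle.exp p.2 ∧ ((0 < tp p.1 ∧ p.2 < 0) ∨
          (0 < tn p.1 ∧ 0 < p.2) ∨ (0 < tp p.1 ∧ 0 < tn p.1)) ∧ |p.2 - u| ≤ D} (y, u) q := by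
  obtain ⟨n, hn⟩ := hz.up
  obtain ⟨n', hn'⟩ := hz.dn
  have n0 : (0 : ℝ) ≤ n := Nat.cast_nonneg n
  have n0' : (0 : ℝ) ≤ n' := Nat.cast_nonneg n'
  have p0 := Real.two_pi_pos
  refine ⟨2 * π * (n + n' + 2), fun y hy u hu h => ?_⟩
  obtain ⟨b, hb, g⟩ := LC.exists_bigA hy.1
  obtain ⟨k, hk⟩ : ∃ k : ℤ, u = 2 * π * (k + L.uu z (a + 4 * α) b y) := by
    obtain ⟨k, hk⟩ := Circle.exp_eq_exp.1 (hu.symm.trans (S.phi_pnt hz.zc hy hb (g.le hy.1) 0))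
    exact ⟨k, by rw [hk]; push_cast; ring⟩
  set s := k + L.uu z (a + 4 * α) b y with hs
  have ab : ∀ {t r : ℝ}, r ≤ n + n' + 2 → s - r ≤ t → t ≤ s + r →
      |2 * π * t - u| ≤ 2 * π * (n + n' + 2) := fun h1 h2 h3 => by
    rw [hk, ← mul_sub, abs_mul, abs_of_pos p0]
    exact mul_le_mul_of_nonneg_left (abs_le.2 ⟨by linarith, by linarith⟩) p0.le
  rcases h with h | h | h
  · obtain ⟨q, hq, j⟩ := S.join_all hz.zc hn hy h.1 (u := s) (neg_of_mul_neg_right (hk ▸ h.2) p0.le)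
      ⟨b, hb, g.le hy.1, k, rfl⟩
    refine ⟨(q.1, 2 * π * q.2), hq, hk ▸ (j.map (f := fun p : E × ℝ => (p.1, 2 * π * p.2))
      (by fun_prop)).mono ?_⟩
    rintro _ ⟨p, ⟨a1, a2, a3, a4, a5, c, hc, gc, l, e⟩, rfl⟩
    refine ⟨a1, ?_, .inl ⟨a2, mul_neg_of_pos_of_neg p0 a3⟩, hk ▸ ab (by linarith) a4 a5⟩
    exact (S.phi_pnt hz.zc a1 hc gc l).trans
      (congrArg (fun t => Circle.exp (2 * π * t)) (congrArg Prod.snd e).symm)
  · obtain ⟨q, hq, j⟩ := S.dual.join_all hz.zc.dual hn' (y := y) ⟨hy.1, hy.2.2, hy.2.1⟩ h.1 (u := -s)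
      (neg_lt_zero.2 (pos_of_mul_pos_right (hk ▸ h.2) p0.le))
      ⟨b, hb, g.le hy.1, -k, by rw [LC.uu_dual, hs]; push_cast; ring⟩
    refine ⟨(q.1, 2 * π * -q.2), ⟨hq.1, hq.2.2, hq.2.1⟩, ?_⟩
    have := j.map (f := fun p : E × ℝ => (p.1, 2 * π * -p.2)) (by fun_prop)
    simp only [neg_neg, ← hk] at this
    refine this.mono ?_
    rintro _ ⟨p, ⟨a1, a2, a3, a4, a5, c, hc, gc, l, e⟩, rfl⟩
    have a1' : p.1 ∈ BB α L tp tn := ⟨a1.1, a1.2.2, a1.2.1⟩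
    refine ⟨a1', ?_, .inr (.inl ⟨a2, mul_pos p0 (neg_pos.2 a3)⟩),
      ab (r := n' + 2) (by linarith) (by linarith) (by linarith)⟩
    refine (S.phi_pnt hz.zc a1' hc gc (-l)).trans (congrArg (fun t => Circle.exp (2 * π * t)) ?_)
    have e' : p.2 = l + -L.uu z (a + 4 * α) c p.1 :=
      (congrArg Prod.snd e).trans (congrArg ((l : ℝ) + ·) (LC.uu_dual _ _))
    rw [e']
    push_cast
    ring
  · obtain ⟨y', hq, j⟩ := S.join_both hy h.1 h.2 hb (g.le hy.1)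
    refine ⟨(y', 2 * π * (k + L.uu z (a + 4 * α) b y')), hq, hk ▸ (j.map_continuousOn
      (f := fun x => (x, 2 * π * (k + L.uu z (a + 4 * α) b x))) (continuousOn_id.prodMk
        (continuousOn_const.mul (continuousOn_const.add ((L.contDiffOn_uu z _ b).continuousOn.mono
          fun x h => h.1.1))))).mono ?_⟩
    rintro _ ⟨x, ⟨a1, a2, a3, a4⟩, rfl⟩
    refine ⟨a1, S.phi_pnt hz.zc a1 hb a4 k, .inr (.inr ⟨a2, a3⟩), hk ▸ ab (r := 2) (by linarith) ?_ ?_⟩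
    · linarith [LC.uu_le (L := L) (z := z) (a := a + 4 * α) b y, LC.le_uu (L := L) (z := z) (a := a + 4 * α) b x]
    · linarith [LC.uu_le (L := L) (z := z) (a := a + 4 * α) b x, LC.le_uu (L := L) (z := z) (a := a + 4 * α) b y]

end Stg

end Crest.Agent.X212.Mol27
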