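import Crest.Agent.X212.Mol27.Rc

/-!
# X212 / Mol27 (helper27): walking to the suture below a sheet (geometry)
-/

set_option autoImplicit false
set_option linter.unusedSectionVars false

open Set Filter Topology Function Metric Classical
open scoped ContDiff NNReal Real
open Crest.Agent.X212.Sm10 Crest.Agent.X212.Hp13 Crest.Agent.X212.Alg36

noncomputable section

namespace Crest.Agent.X212.Mol27

variable {E : Type} [NormedAddCommGroup E] [NormedSpace ℝ E]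
  {P : Type} [PartialOrder P] [Fintype P] {A : Set P} {z : P → P → ℤ} {δ a0 a α : ℝ}
  {L : LC E A δ} {tp tn : E → ℝ} {y : E} {b c o x q : P} {k : ℤ}

variable (a0 a α L tp tn) in
/-- the two colours of a stage -/
structure Stg : Prop where
  hp : Pl a0 a α L tp
  hn : Pl (P := Pᵒᵈ) a0 a α L.dual tn
  k10 : 10 * (Fintype.card P * δ) ≤ α
  lo : α ≤ a
  hi : a + 4 * α ≤ 1 / 16

theorem Stg.dual (S : Stg a0 a α L tp tn) : Stg (P := Pᵒᵈ) a0 a α L.dual tn tp :=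
  ⟨S.hn, S.hp, S.k10, S.lo, S.hi⟩

variable (α L tp tn) in
/-- the compact neighbourhood of the plateau -/
def BB : Set E := {y | y ∈ L.U ∧ tp y ≤ sig (3 * α) ∧ tn y ≤ sig (3 * α)}

variable (a α L) in
/-- the free points near the suture -/
def QQ : Set E :=
  {y | y ∈ L.U ∧ (a + α / 2 ≤ L.p y ∧ L.p y ≤ a + 2 * α) ∧ a + α / 2 ≤ L.m y ∧ L.m y ≤ a + 2 * α}

variable (z a L) in
/-- the lifted point of level `k` based at `b` -/
def pnt (b : P) (k : ℤ) (y : E) : E × ℝ := (y, k + L.uu z a b y)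

variable (z a α L tp tn) in
/-- lifted points under the sheet `0` -/
def GG (lo hi : ℝ) : Set (E × ℝ) := {q | q.1 ∈ BB α L tp tn ∧ 0 < tp q.1 ∧ q.2 < 0 ∧ lo ≤ q.2 ∧
  q.2 ≤ hi ∧ ∃ b ∈ A, δ ≤ L.lam q.1 b ∧ ∃ k : ℤ, q = pnt z (a + 4 * α) L b k q.1}

theorem GG_mono {lo hi lo' hi' : ℝ} (h1 : lo' ≤ lo) (h2 : hi ≤ hi') :
    GG z a α L tp tn lo hi ⊆ GG z a α L tp tn lo' hi' :=
  fun _ ⟨a1, a2, a3, a4, a5, a6⟩ => ⟨a1, a2, a3, h1.trans a4, a5.trans h2, a6⟩

theorem join0 {w : E} (hb : b ∈ A) (h : ∀ τ ∈ Icc (0 : ℝ) 1, y + τ • w ∈ BB α L tp tn ∧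
    0 < tp (y + τ • w) ∧ δ ≤ L.lam (y + τ • w) b ∧ k + L.uu z (a + 4 * α) b (y + τ • w) < 0) :
    JoinedIn (GG z a α L tp tn (k - 1) (k + 1)) (pnt z (a + 4 * α) L b k y)
      (pnt z (a + 4 * α) L b k (y + w)) := by
  have hc : Continuous fun τ : ℝ => y + τ • w := by fun_prop
  refine JoinedIn.ofLine (f := fun τ => pnt z (a + 4 * α) L b k (y + τ • w))
    (hc.continuousOn.prodMk (continuousOn_const.add ((L.contDiffOn_uu z _ b).continuousOn.comp
      hc.continuousOn fun τ hτ => (h τ hτ).1.1))) (by simp) (by simp) ?_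
  rintro _ ⟨τ, hτ, rfl⟩
  obtain ⟨h1, h2, h3, h4⟩ := h τ hτ
  refine ⟨h1, h2, h4, ?_, ?_, b, hb, h3, k, rfl⟩
  · exact (sub_eq_add_neg _ _).le.trans (add_le_add le_rfl (LC.le_uu b _))
  · exact add_le_add le_rfl (LC.uu_le b _)

theorem wS_not (hb : b ∈ A) {ν : P → ℝ} (h0 : ∀ q, 0 ≤ ν q) (h : ∀ q, ν q ≠ 0 → Cm b q) :
    wS Aᶜ ν ≤ wS (Op A) ν + wS (Om A) ν :=
  (wS_mono h0 fun q hq n => (h q hq).imp (fun k => ⟨n, b, hb, k⟩) fun k => ⟨n, b, hb, k⟩).trans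
    (wS_union_le h0 _ _)

theorem LC.w_le_sub (hy : y ∈ L.U) {T : Set P} (h : b ∉ T) : L.w T y ≤ 1 - L.mu y b := by
  have h1 : L.mu y b ≤ L.w Tᶜ y := le_wS (L.nonneg y hy) h
  linarith [LC.w_compl hy T]

theorem kap_nonneg (L : LC E A δ) : (0 : ℝ) ≤ Fintype.card P * δ :=
  mul_nonneg (Nat.cast_nonneg _) L.δ0.le

theorem le_kap (L : LC E A δ) (b : P) : δ ≤ Fintype.card P * δ :=
  le_mul_of_one_le_left L.δ0.le (by exact_mod_cast Fintype.card_pos_iff.2 ⟨b⟩)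

variable (a α A δ) in
/-- robust weights -/
structure Rb (b : P) (ν : P → ℝ) : Prop where
  wt : IsWt ν
  p1 : a + Fintype.card P * δ < wS (Op A) ν
  p2 : wS (Op A) ν + Fintype.card P * δ ≤ a + 2 * α
  m2 : wS (Om A) ν + Fintype.card P * δ ≤ a + 2 * α
  hv : 1 / 3 ≤ ν b

namespace Stg

variable (S : Stg a0 a α L tp tn) (hz : Zc A z)
include S

theorem α_pos [Nonempty P] : 0 < α := by
  linarith [S.k10, le_kap L (Classical.arbitrary P), L.δ0]

theorem mem_BB (hy : y ∈ L.U) (h1 : L.p y ≤ a + 2 * α) (h2 : L.m y ≤ a + 2 * α) : y ∈ BB α L tp tn :=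
  ⟨hy, S.hp.fat y hy h1, S.hn.fat y hy h2⟩

theorem p_le (hy : y ∈ BB α L tp tn) : L.p y ≤ a + 3 * α := S.hp.thin y hy.1 hy.2.1
theorem m_le (hy : y ∈ BB α L tp tn) : L.m y ≤ a + 3 * α := S.hn.thin y hy.1 hy.2.2

theorem tp_pos (hy : y ∈ L.U) (h : a < L.p y) : 0 < tp y :=
  (S.hp.nn y hy).lt_of_ne' fun e => h.not_ge (S.hp.low y hy e)

theorem sixth (hb : b ∈ A) {ν : P → ℝ} (h : Rb A δ a α b ν) : wS Aᶜ ν ≤ 1 / 6 := by
  have := wS_not hb h.wt.nonneg fun q hq => h.wt.cm (by linarith [h.hv]) hq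
  linarith [h.p2, h.m2, S.hi, S.k10, kap_nonneg L, S.lo]

include hz

theorem neg_of (hy : y ∈ L.U) (hb : b ∈ A) (hk : k ≤ -1) (h : 1 / 4 ≤ L.lam y b) :
    k + L.uu z (a + 4 * α) b y < 0 := by
  have h1 := LC.uu_lt (L := L) (z := z) (a := a + 4 * α) (y := y) (b := b) (by linarith [S.hi]) (by
    linarith [LC.w_le_sub hy (hz.not_SP hb), LC.lam_lt hy b, S.hi, le_kap L b, L.small])
  have h2 : (k : ℝ) ≤ -1 := by exact_mod_cast hk
  linarith

theorem join1 (hb : b ∈ A) (hk : k ≤ -1) {ν ν' : P → ℝ} (h : Rb A δ a α b ν) (h' : Rb A δ a α b ν')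
    (hc : ∀ s t, ν s ≠ 0 → ν' t ≠ 0 → Cm s t) :
    JoinedIn (GG z a α L tp tn (k - 1) (k + 1)) (pnt z (a + 4 * α) L b k (pt L.X ν))
      (pnt z (a + 4 * α) L b k (pt L.X ν')) := by
  rw [show pt L.X ν' = pt L.X ν + pt L.X (ν' - ν) by rw [pt_sub, add_sub_cancel]]
  refine join0 hb fun τ hτ => ?_
  obtain ⟨r1, r2⟩ := L.real_seg h.wt h'.wt hc (S.sixth hb h) (S.sixth hb h') hτ
  have e1 := LC.w_le r1 (Op A)
  have e2 := LC.le_w r1 (Op A)
  have e3 := LC.w_le r1 (Om A)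
  rw [r2, wS_add, wS_smul, wS_sub] at e1 e2 e3
  have e4 : 1 / 3 ≤ L.lam (pt L.X ν + τ • pt L.X (ν' - ν)) b := by
    rw [r2]
    simp only [Pi.add_apply, Pi.smul_apply, Pi.sub_apply, smul_eq_mul]
    nlinarith [h.hv, h'.hv, hτ.1, hτ.2]
  refine ⟨S.mem_BB r1 (e1.trans ?_) (e3.trans ?_), S.tp_pos r1 ?_, ?_, S.neg_of hz r1 hb hk (by linarith)⟩
  · nlinarith [h.p2, h'.p2, hτ.1, hτ.2]
  · nlinarith [h.m2, h'.m2, hτ.1, hτ.2]
  · have : a + Fintype.card P * δ < wS (Op A) ν + τ * (wS (Op A) ν' - wS (Op A) ν) := by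
      rcases le_total (wS (Op A) ν) (wS (Op A) ν') with n | n <;> nlinarith [h.p1, h'.p1, hτ.1, hτ.2]
    simp only [LC.p]
    linarith
  · linarith [le_kap L b, L.small]

end Stg

/-- weights on three vertices -/
def w3 (b c o : P) (s β : ℝ) : P → ℝ := (1 - s - β) • e b + s • e c + β • e o

theorem w3_ne {s β : ℝ} (h : w3 b c o s β q ≠ 0) : q = b ∨ q = c ∨ q = o := by
  by_contra! n
  exact h (by simp [w3, e_apply, n.1, n.2.1, n.2.2])

theorem wS_w3 (T : Set P) (s β : ℝ) :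
    wS T (w3 b c o s β) = (1 - s - β) * io T b + s * io T c + β * io T o := by
  simp only [w3, wS_add, wS_smul, wS_e]

theorem e_nonneg (s t : P) : 0 ≤ e s t := by rw [e_apply]; split_ifs <;> norm_num

theorem le_w3 {s β : ℝ} (hs : 0 ≤ s) (hβ : 0 ≤ β) : 1 - s - β ≤ w3 b c o s β b := by
  have := mul_nonneg hs (e_nonneg c b)
  have := mul_nonneg hβ (e_nonneg o b)
  simp only [w3, Pi.add_apply, Pi.smul_apply, smul_eq_mul, e_apply b b, if_true]
  linarith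

/-- three pairwise comparable points -/
def C3 (b c o : P) : Prop := Cm b c ∧ Cm b o ∧ Cm c o

theorem C3.cm (h : C3 b c o) {s t : P} (hs : s = b ∨ s = c ∨ s = o) (ht : t = b ∨ t = c ∨ t = o) :
    Cm s t := by
  rcases hs with rfl | rfl | rfl <;> rcases ht with rfl | rfl | rfl
  exacts [Cm.rfl, h.1, h.2.1, h.1.symm, Cm.rfl, h.2.2, h.2.1.symm, h.2.2.symm, Cm.rfl]

theorem isWt_w3 (h : C3 b c o) {s β : ℝ} (hs : 0 ≤ s) (hβ : 0 ≤ β) (h1 : s + β ≤ 1) :
    IsWt (w3 b c o s β) :=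
  isWt_of (fun q => add_nonneg (add_nonneg (mul_nonneg (by linarith) (e_nonneg _ _))
      (mul_nonneg hs (e_nonneg _ _))) (mul_nonneg hβ (e_nonneg _ _)))
    (by simp only [w3, Pi.add_apply, Pi.smul_apply, smul_eq_mul, Finset.sum_add_distrib,
      ← Finset.mul_sum, sum_e]; ring) fun _ _ a b => h.cm (w3_ne a) (w3_ne b)

theorem not_om (hA : A.OrdConnected) (h : o ∈ Op A) : o ∉ Om A :=
  fun ⟨h1, _, h2, h3⟩ => let ⟨_, _, h4, h5⟩ := h; h1 (hA.out h4 h2 ⟨h5, h3⟩)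

namespace Stg

variable (S : Stg a0 a α L tp tn) (hz : Zc A z)
include S

theorem rb_w3 (hb : b ∈ A) (hc : c ∉ Op A) (ho : o ∈ Op A) (h : C3 b c o) {s : ℝ} (hs : 0 ≤ s)
    (h1 : s ≤ (1 - (a + α)) / 2) (h2 : c ∈ A ∨ s ≤ a + α) : Rb A δ a α b (w3 b c o s (a + α)) := by
  have k0 := kap_nonneg L
  have k1 := S.k10
  have k2 := S.lo
  have k3 := S.hi
  have k4 := le_kap L b
  have k5 := L.δ0
  have e1 : wS (Op A) (w3 b c o s (a + α)) = a + α := by
    rw [wS_w3, io_not (fun n => n.1 hb), io_not hc, io_mem ho]; ring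
  refine ⟨isWt_w3 h hs (by linarith) (by linarith), by linarith, by linarith, ?_,
    le_trans (by linarith) (le_w3 hs (by linarith))⟩
  rw [wS_w3, io_not (fun n => n.1 hb), io_not (not_om L.conv ho)]
  rcases h2 with h2 | h2
  · rw [io_not (fun n => n.1 h2)]; linarith
  · nlinarith [io_le (Om A) c, io_nonneg (Om A) c]

theorem rb_st (hb : b ∈ A) (ho : o ∈ Op A) (h : b ≤ o) : Rb A δ a α b (w3 b b o 0 (a + α)) :=
  S.rb_w3 hb (fun n => n.1 hb) ho ⟨Cm.rfl, .inl h, .inl h⟩ le_rfl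
    (by linarith [S.hi, S.k10, kap_nonneg L]) (.inl hb)

include hz

theorem join_mid (hb : b ∈ A) (hc : c ∈ A) (ho : o ∈ Op A) (h : C3 b c o) (hk : k ≤ -1) :
    JoinedIn (GG z a α L tp tn (k - 1) (k + 1)) (pnt z (a + 4 * α) L b k (pt L.X (w3 b b o 0 (a + α))))
      (pnt z (a + 4 * α) L b k (pt L.X (w3 b c o ((1 - (a + α)) / 2) (a + α)))) :=
  S.join1 hz hb hk (S.rb_st hb ho (op_lt L.conv hb ho h.2.1).le)
    (S.rb_w3 hb (fun n => n.1 hc) ho h (by linarith [S.hi, S.k10, kap_nonneg L]) le_rfl (.inl hc))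
    fun _ _ a b => h.cm ((w3_ne a).elim .inl (Or.imp_right .inr)) (w3_ne b)

theorem join_up (hb : b ∈ A) (hc : c ∈ A) (ho : o ∈ Op A) (h1 : b ≤ c) (h2 : c ≤ o) {lo hi : ℤ}
    (k1 : lo ≤ k) (k2 : k + z b c ≤ hi) (k3 : hi ≤ -1) :
    JoinedIn (GG z a α L tp tn (lo - 1) (hi + 1))
      (pnt z (a + 4 * α) L b k (pt L.X (w3 b b o 0 (a + α))))
      (pnt z (a + 4 * α) L c (k + z b c) (pt L.X (w3 c c o 0 (a + α)))) := by
  have k0 := hz.nn b hb c hc h1
  have c3 : C3 b c o := ⟨.inl h1, .inl (h1.trans h2), .inl h2⟩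
  have c3' : C3 c b o := ⟨.inr h1, .inl h2, .inl (h1.trans h2)⟩
  have j1 := S.join_mid hz hb hc ho c3 (k := k) (by omega)
  have j2 := S.join_mid hz hc hb ho c3' (k := k + z b c) (by omega)
  have e1 : w3 c b o ((1 - (a + α)) / 2) (a + α) = w3 b c o ((1 - (a + α)) / 2) (a + α) := by
    rw [w3, w3, show 1 - (1 - (a + α)) / 2 - (a + α) = (1 - (a + α)) / 2 by ring, add_comm (_ • e c)]
  have t1 := j1.target_mem.1
  have hs : 0 ≤ (1 - (a + α)) / 2 := by linarith [S.hi, S.k10, kap_nonneg L]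
  have r1 := S.rb_w3 hb (fun n => n.1 hc) ho c3 hs le_rfl (.inl hc)
  have r2 := S.rb_w3 hc (fun n => n.1 hb) ho c3' hs le_rfl (.inl hb)
  rw [e1] at j2 r2
  have r3 := (L.real _ r1.wt (S.sixth hb r1)).2
  have e2 := LC.uu_change hz (a := a + 4 * α) (by linarith [S.hi]) t1.1
    (by linarith [S.p_le t1, S.k10, kap_nonneg L]) (by linarith [S.m_le t1, S.k10, kap_nonneg L]) hb hc
    (by show δ ≤ L.lam (pt _ _) _; rw [r3]; linarith [r1.hv, le_kap L b, L.small])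
    (by show δ ≤ L.lam (pt _ _) _; rw [r3]; linarith [r2.hv, le_kap L b, L.small]) h1
  refine (j1.mono (GG_mono ?_ ?_)).trans (Eq.subst (motive := fun q => JoinedIn _ q _) ?_
    (j2.symm.mono (GG_mono ?_ ?_)))
  · exact_mod_cast (by omega : lo - 1 ≤ k - 1)
  · exact_mod_cast (by omega : k + 1 ≤ hi + 1)
  · refine Prod.ext rfl ?_
    simp only [pnt] at e2 ⊢
    rw [e2]
    push_cast
    ring
  · exact_mod_cast (by omega : lo - 1 ≤ k + z b c - 1)
  · exact_mod_cast (by omega : k + z b c + 1 ≤ hi + 1)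

theorem join_rc {lo hi : ℤ} (h : Rc A z lo hi b o k) (k3 : hi ≤ -1) (hb : b ∈ A) (ho : o ∉ A)
    (hbo : b ≤ o) : ∃ q : E × ℝ, q.1 ∈ QQ a α L ∧ JoinedIn (GG z a α L tp tn (lo - 1) (hi + 1))
      (pnt z (a + 4 * α) L b k (pt L.X (w3 b b o 0 (a + α)))) q := by
  induction h with
  | @sut x b o k a1 a2 a3 a4 =>
    have ho' : o ∈ Op A := ⟨ho, b, hb, hbo⟩
    have hx : x ∈ Om A := ⟨a1, b, hb, a2⟩
    have c3 : C3 b x o := ⟨.inr a2, .inl hbo, .inl (a2.trans hbo)⟩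
    have r1 := S.rb_w3 hb (fun n => not_om L.conv n hx) ho' c3 (s := a + α)
      (by linarith [S.lo, S.k10, kap_nonneg L]) (by linarith [S.hi, S.k10, kap_nonneg L]) (.inr le_rfl)
    have j := S.join1 hz hb (a4.trans k3) (S.rb_st hb ho' hbo) r1
      fun _ _ a b => c3.cm ((w3_ne a).elim .inl (Or.imp_right .inr)) (w3_ne b)
    refine ⟨_, ?_, j.mono (GG_mono (by exact_mod_cast (by omega : lo - 1 ≤ k - 1))
      (by exact_mod_cast (by omega : k + 1 ≤ hi + 1)))⟩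
    obtain ⟨r2, r3⟩ := L.real _ r1.wt (S.sixth hb r1)
    have e1 := LC.w_le r2 (Op A)
    have e2 := LC.le_w r2 (Op A)
    have e3 := LC.w_le r2 (Om A)
    have e4 := LC.le_w r2 (Om A)
    rw [r3, wS_w3] at e1 e2 e3 e4
    rw [io_not (fun n => n.1 hb), io_not (fun n => not_om L.conv n hx), io_mem ho'] at e1 e2
    rw [io_not (fun n => n.1 hb), io_mem hx, io_not (not_om L.conv ho')] at e3 e4
    have k0 := kap_nonneg L
    have k1 := S.k10
    exact ⟨r2, ⟨by simp only [pnt, LC.p]; linarith, by simp only [pnt, LC.p]; linarith⟩,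
      by simp only [pnt, LC.m]; linarith, by simp only [pnt, LC.m]; linarith⟩
  | up a1 a2 a3 a4 _ a6 ih =>
    exact (ih a1 ho a3).imp fun q hq => ⟨hq.1,
      (S.join_up hz hb a1 ⟨ho, _, hb, hbo⟩ a2 a3 a4 a6.mem.2 k3).trans hq.2⟩
  | @dn b c o k a1 a2 _ a5 a6 ih =>
    refine (ih a1 ho (a2.trans hbo)).imp fun q hq => ⟨hq.1, JoinedIn.trans ?_ hq.2⟩
    have := (S.join_up hz a1 hb ⟨ho, _, hb, hbo⟩ a2 hbo a6.mem.1 (by simpa using a5) k3).symm
    rwa [sub_add_cancel] at this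
  | @mv b o p k a1 a2 a3 a4 ih =>
    refine (ih hb a1 a2).imp fun q hq => ⟨hq.1, JoinedIn.trans ?_ hq.2⟩
    have c3 : C3 b o p := ⟨.inl hbo, .inl a2, a3⟩
    have := a4.mem
    exact (S.join1 hz hb (this.2.trans k3) (S.rb_st hb ⟨ho, b, hb, hbo⟩ hbo)
      (S.rb_st hb ⟨a1, b, hb, a2⟩ a2) fun _ _ a b =>
        c3.cm ((w3_ne a).elim .inl (Or.imp_right .inl)) ((w3_ne b).elim .inl (Or.imp_right .inr))).mono
      (GG_mono (by exact_mod_cast (by omega : lo - 1 ≤ k - 1))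
        (by exact_mod_cast (by omega : k + 1 ≤ hi + 1)))

end Stg

/-- gathering at a vertex of `A` does not increase a colour -/
theorem Pl0.gather_le {t : E → ℝ} (h : Pl0 a0 L t) (hb : b ∈ A) {x : E} (hx : x ∈ L.U)
    (hq : δ ≤ L.lam x q) (g : δ ≤ L.lam x b) : 0 ≤ fderiv ℝ (fun y => -t y) x (L.X b - L.X q) := by
  rw [fderiv_fun_neg, neg_apply, ← map_neg, neg_sub]
  by_cases k : q ∈ Op A
  · exact h.mono x hx b q g hq (op_lt L.conv hb k (LC.cm_of_le hx g hq)).le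
  · exact (h.inv x hx b q g hq (fun n => n.1 hb) k).ge

namespace Stg

variable (S : Stg a0 a α L tp tn) (hz : Zc A z)
include S hz

/-- first move: all the big weight goes to `b` -/
theorem join_gather (hy : y ∈ BB α L tp tn) (h0 : 0 < tp y) (hb : b ∈ A) (g : δ ≤ L.lam y b)
    (hk : k ≤ -2 ∨ L.w (SP A z b) y < 1 - (a + 4 * α)) (hk' : k ≤ -1) :
    ∃ y', wS (Op A) (L.lam y') ≤ a + α ∧ (∀ q ∉ Op A, q ≠ b → L.lam y' q ≤ δ) ∧
      JoinedIn (GG z a α L tp tn (k - 1) (k + 1)) (pnt z (a + 4 * α) L b k y)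
        (pnt z (a + 4 * α) L b k y') := by
  have k0 := kap_nonneg L
  have k1 := S.k10
  have k2 := S.lo
  have k3 := S.hi
  have k5 := L.δ0
  have hW := L.wt y hy.1
  set d : P → ℝ := fun q => max (L.lam y q - δ) 0 with hd
  have d0 : ∀ q, 0 ≤ d q := fun q => le_max_right _ _
  have d1 : wS (Op A) (L.lam y) - Fintype.card P * δ ≤ wS (Op A) d := by
    have := wS_le_card (S := Op A) (μ := L.lam y - d) k5.le fun q _ => by
      linarith [le_max_left (L.lam y q - δ) 0, show (L.lam y - d) q = L.lam y q - d q from rfl]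
    rw [wS_sub] at this
    linarith
  obtain ⟨θ, t0, t1, t2, t3⟩ : ∃ θ : ℝ, 0 ≤ θ ∧ θ ≤ 1 ∧ wS (Op A) (L.lam y) - θ * wS (Op A) d ≤ a + α ∧
      (θ = 0 ∨ a + α ≤ wS (Op A) (L.lam y) - θ * wS (Op A) d) := by
    rcases le_or_gt (wS (Op A) (L.lam y)) (a + α) with n | n
    · exact ⟨0, le_rfl, zero_le_one, by simpa using n, .inl rfl⟩
    · have p0 : 0 < wS (Op A) d := by linarith
      refine ⟨(wS (Op A) (L.lam y) - (a + α)) / wS (Op A) d, div_nonneg (by linarith) p0.le,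
        (div_le_one p0).2 (by linarith), ?_, .inr ?_⟩ <;> rw [div_mul_cancel₀ _ p0.ne'] <;> linarith
  set c : P → ℝ := fun q => if q = b then 0 else if q ∈ Op A then θ * d q else d q with hc
  have c0 : ∀ q, 0 ≤ c q := fun q => by
    simp only [hc]; split_ifs
    exacts [le_rfl, mul_nonneg t0 (d0 q), d0 q]
  have c1 : ∀ q, c q ≤ d q := fun q => by
    simp only [hc]; split_ifs
    exacts [d0 q, mul_le_of_le_one_left (d0 q) t1, le_rfl]
  have c2 : ∀ q, c q ≠ 0 → δ + c q ≤ L.lam y q := fun q h => by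
    have h1 := ((c0 q).lt_of_ne' h).trans_le (c1 q)
    have h2 : d q = L.lam y q - δ := max_eq_left (le_of_lt (by simpa [hd] using h1))
    linarith [c1 q]
  have c3 : wS (Op A) c = θ * wS (Op A) d := by
    rw [← wS_smul]
    refine le_antisymm (wS_le_wS fun q hq => ?_) (wS_le_wS fun q hq => ?_) <;>
      simp [hc, hq, show q ≠ b from fun e => hq.1 (e ▸ hb)]
  have w1 : ∀ T, b ∉ T → wS T (gw b c) = -wS T c := fun T h => by rw [wS_gw, io_not h]; ring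
  have s1 : wS Aᶜ (L.lam y) ≤ 1 / 6 := by
    linarith [LC.le_w hy.1 Aᶜ, LC.w_not hy.1, S.p_le hy, S.m_le hy, L.small]
  obtain ⟨r1, r2⟩ := LC.seg hy.1 g c0 c2 s1 (by
    rw [wS_add, w1 Aᶜ fun n => n hb]; linarith [wS_nonneg c0 Aᶜ])
  have one := right_mem_Icc.2 (zero_le_one (α := ℝ))
  refine ⟨y + pt L.X (gw b c), ?_, fun q h1 h2 => ?_, join0 hb fun τ hτ => ?_⟩
  · have := (r1 1 one).2.1
    rw [one_smul, one_smul] at this
    rw [this, wS_add, w1 _ fun n => n.1 hb, c3]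
    linarith
  · have := (r1 1 one).2.1
    rw [one_smul, one_smul] at this
    rw [this, Pi.add_apply, gw_ne c h2]
    simp only [hc, if_neg h2, if_neg h1]
    linarith [le_max_left (L.lam y q - δ) 0]
  obtain ⟨u1, u2, u3⟩ := r1 τ hτ
  refine ⟨⟨u1, le_trans (neg_le_neg_iff.1 (r2 _ S.hp.sm.neg
      (fun x hx q _ a1 a2 => S.hp.gather_le hb hx a1 a2) τ hτ)) hy.2.1,
    le_trans (neg_le_neg_iff.1 (r2 _ S.hn.sm.neg
      (fun x hx q _ a1 a2 => S.hn.gather_le hb hx a1 a2) τ hτ)) hy.2.2⟩, ?_, ?_, ?_⟩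
  · rcases t3 with rfl | t3
    · refine h0.trans_le (r2 _ S.hp.sm (fun x hx q h a1 a2 => ?_) τ hτ)
      exact (S.hp.inv x hx q b a1 a2 (fun n => h (by simp [hc, n])) fun n => n.1 hb).ge
    · refine S.tp_pos u1 ?_
      have := LC.le_w u1 (Op A)
      rw [u2, wS_add, wS_smul, w1 _ fun n => n.1 hb, c3] at this
      have : [Nonempty P] → 0 < α := S.α_pos
      have := @this ⟨b⟩
      simp only [LC.p]
      nlinarith [hτ.2, mul_nonneg t0 (wS_nonneg d0 (Op A))]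
  · rw [u2, Pi.add_apply, Pi.smul_apply, gw_self, smul_eq_mul]
    nlinarith [hτ.1, Finset.single_le_sum (fun q _ => c0 q) (Finset.mem_univ b)]
  · rcases hk with hk | hk
    · have : (k : ℝ) ≤ -2 := by exact_mod_cast hk
      linarith [LC.uu_le (L := L) (z := z) (a := a + 4 * α) b (y + τ • pt L.X (gw b c))]
    · have : (k : ℝ) ≤ -1 := by exact_mod_cast hk'
      have h2 := LC.uu_lt (L := L) (z := z) (a := a + 4 * α) (b := b) (y := y + τ • pt L.X (gw b c))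
        (by linarith) (by
          rw [LC.w, u3, wS_add, wS_smul, w1 _ (hz.not_SP hb)]
          rw [LC.w] at hk
          nlinarith [hτ.1, wS_nonneg c0 (SP A z b)])
      linarith

/-- second move: the weight of `O₊` is raised to the standard value -/
theorem join_raise (hy : y ∈ L.U) (h0 : 0 < tp y) (hb : b ∈ A) (hk : k ≤ -1)
    (h1 : wS (Op A) (L.lam y) ≤ a + α) (h2 : ∀ q ∉ Op A, q ≠ b → L.lam y q ≤ δ) :
    ∃ o ∉ A, b ≤ o ∧ JoinedIn (GG z a α L tp tn (k - 1) (k + 1)) (pnt z (a + 4 * α) L b k y)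
      (pnt z (a + 4 * α) L b k (pt L.X (w3 b b o 0 (a + α)))) := by
  have k0 := kap_nonneg L
  have k1 := S.k10
  have k2 := S.lo
  have k3 := S.hi
  have k4 := le_kap L b
  have k5 := L.δ0
  have hW := L.wt y hy
  obtain ⟨o, ho, g, -⟩ := S.hp.str y hy h0
  set θ := a + α - wS (Op A) (L.lam y) with hθ
  have t0 : 0 ≤ θ := sub_nonneg.2 h1
  have m1 : wS (Om A) (L.lam y) ≤ Fintype.card P * δ := wS_le_card k5.le fun q hq =>
    h2 q (fun n => not_om L.conv n hq) fun e => hq.1 (e ▸ hb)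
  have b1 : 1 - wS (Op A) (L.lam y) - Fintype.card P * δ ≤ L.lam y b := by
    have e1 := wS_compl (Op A ∪ {b}) (L.lam y)
    have e2 : wS (Op A ∪ {b})ᶜ (L.lam y) ≤ Fintype.card P * δ :=
      wS_le_card k5.le fun q hq => h2 q (fun n => hq (.inl n)) fun n => hq (.inr n)
    have e3 := wS_union_le hW.nonneg (Op A) {b}
    have e4 : wS {b} (L.lam y) = L.lam y b := by simp [wS, io]
    rw [hW.sum] at e1
    linarith
  have gb : δ ≤ L.lam y b := by linarith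
  have hbo := op_lt L.conv hb ho (LC.cm_of_le hy gb (g.le hy))
  have w1 : ∀ T, wS T (gw o (θ • e b)) = θ * (io T o - io T b) := fun T => by
    rw [wS_gw, wS_smul, wS_e]
    simp only [Pi.smul_apply, smul_eq_mul, ← Finset.mul_sum, sum_e]
    ring
  have w2 : gw o (θ • e b) b = -θ := by rw [gw_ne _ hbo.ne]; simp [e_apply]
  have s1 := wS_not hb hW.nonneg (LC.cm_lam hy gb)
  have c1 : ∀ q, (θ • e b) q ≠ 0 → q = b := fun q h => by_contra fun n => h (by simp [e_apply, n])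
  obtain ⟨r1, r2⟩ := LC.seg (c := θ • e b) hy (g.le hy) (fun q => mul_nonneg t0 (e_nonneg _ _))
    (fun q h => by rw [c1 q h]; simp [e_apply]; linarith) (by linarith)
    (by rw [wS_add, w1, io_mem (show o ∈ Aᶜ from ho.1), io_not (S := Aᶜ) fun n => n hb]; linarith)
  have r3 : ∀ τ : ℝ, wS (Op A) (L.lam y + τ • gw o (θ • e b)) = wS (Op A) (L.lam y) + τ * θ ∧
      wS (Om A) (L.lam y + τ • gw o (θ • e b)) = wS (Om A) (L.lam y) ∧
      (L.lam y + τ • gw o (θ • e b)) b = L.lam y b - τ * θ := fun τ => by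
    rw [wS_add, wS_add, wS_smul, wS_smul, w1, w1, io_mem ho, io_not (fun n => n.1 hb),
      io_not (not_om L.conv ho), io_not (fun n => n.1 hb), Pi.add_apply, Pi.smul_apply, w2]
    simp [sub_eq_add_neg]
  obtain ⟨v1, v2, -⟩ := r1 1 (right_mem_Icc.2 zero_le_one)
  obtain ⟨v3, v4, v5⟩ := r3 1
  rw [← v2] at v3 v4 v5
  rw [one_smul] at v1 v2 v3 v4 v5
  refine ⟨o, ho.1, hbo.le, (join0 (w := pt L.X (gw o (θ • e b))) hb fun τ hτ => ?_).trans ?_⟩
  · obtain ⟨u1, u2, -⟩ := r1 τ hτ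
    obtain ⟨u3, u4, u5⟩ := r3 τ
    rw [← u2] at u3 u4 u5
    have u6 : τ * θ ≤ θ := mul_le_of_le_one_left t0 hτ.2
    refine ⟨S.mem_BB u1 ((LC.w_le u1 _).trans (by linarith)) ((LC.w_le u1 _).trans (by linarith)),
      h0.trans_le (r2 _ S.hp.sm (fun x hx q h a1 a2 => S.hp.mono x hx q o a1 a2 (c1 q h ▸ hbo.le)) τ hτ),
      by linarith, S.neg_of hz u1 hb hk (by linarith)⟩
  · have rb : Rb A δ a α b (L.lam (y + pt L.X (gw o (θ • e b)))) :=
      ⟨L.wt _ v1, by linarith, by linarith, by linarith, by linarith⟩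
    have := S.join1 hz hb hk rb (S.rb_st hb ho hbo.le) fun s t hs ht => rb.wt.cm hs (by
      rcases w3_ne ht with rfl | rfl | rfl
      · linarith [rb.hv]
      · linarith [rb.hv]
      · rw [v2, one_smul, Pi.add_apply, gw_self]
        simp only [Pi.smul_apply, smul_eq_mul, ← Finset.mul_sum, sum_e]
        rw [e_apply, if_neg hbo.ne']
        exact ne_of_gt (by linarith [g.le hy]))
    rwa [L.pos _ v1] at this

/-- **the one-sided condition** -/
theorem join_all {n : ℕ} (hn : Rch0 A z n) (hy : y ∈ BB α L tp tn) (h0 : 0 < tp y) {u : ℝ}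
    (hu : u < 0) (h : ∃ b ∈ A, δ ≤ L.lam y b ∧ ∃ k : ℤ, u = k + L.uu z (a + 4 * α) b y) :
    ∃ q : E × ℝ, q.1 ∈ QQ a α L ∧ JoinedIn (GG z a α L tp tn (u - (n + 2)) (u + (n + 2))) (y, u) q := by
  have k0 := kap_nonneg L
  have k1 := S.k10
  have k3 := S.hi
  have ha : a + 4 * α < 1 / 2 := by linarith
  obtain ⟨b, hb, g, hm⟩ := LC.exists_low hz hy.1
  obtain ⟨k, hk⟩ : ∃ k : ℤ, u = k + L.uu z (a + 4 * α) b y := by
    obtain ⟨c, hc, g', k, rfl⟩ := h
    have e := fun b c => LC.uu_change (b := b) (b' := c) hz ha hy.1 (by linarith [S.p_le hy])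
      (by linarith [S.m_le hy])
    rcases LC.cm_of_le hy.1 g' (g.le hy.1) with n | n
    · exact ⟨k + z c b, by rw [e c b hc hb g' (g.le hy.1) n]; push_cast; ring⟩
    · exact ⟨k - z b c, by rw [e b c hb hc (g.le hy.1) g' n]; push_cast; ring⟩
  have e1 : L.uu z (a + 4 * α) b y = tau (a + 4 * α) (L.w (SP A z b) y) := by
    rw [LC.uu, (tau_zero_iff ha).2 (hm.trans (by linarith [S.m_le hy])), sub_zero]
  have e2 := tau_nonneg (a + 4 * α) (L.w (SP A z b) y)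
  have e3 := tau_le_one (a + 4 * α) (L.w (SP A z b) y)
  have hk1 : k ≤ -1 := by
    have : (k : ℝ) < 0 := by linarith
    have : k < 0 := by exact_mod_cast this
    omega
  obtain ⟨y', a1, a2, j1⟩ := S.join_gather hz hy h0 hb (g.le hy.1) (k := k) (by
    rcases hk1.eq_or_lt with rfl | n
    · refine .inr (not_le.1 fun n => ?_)
      rw [e1, (tau_one_iff ha).2 n] at hk
      norm_num [hk] at hu
    · exact .inl (by omega)) hk1
  obtain ⟨o, ho, hbo, j2⟩ := S.join_raise hz j1.target_mem.1.1 j1.target_mem.2.1 hb hk1 a1 a2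
  obtain ⟨q, hq, j3⟩ := S.join_rc hz (hn b hb o ho hbo k) hk1 hb ho hbo
  have n0 : (0 : ℝ) ≤ n := Nat.cast_nonneg n
  refine ⟨q, hq, hk ▸ ((j1.trans j2).mono (GG_mono ?_ ?_)).trans (j3.mono (GG_mono ?_ ?_))⟩
  all_goals push_cast; linarith

end Stg

end Crest.Agent.X212.Mol27
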