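import Mathlib

/-!
# X212 / Mol27 (helper27): barycentric coordinates and their mollification

* `Bary E V` : barycentric coordinates `lam : E → V → ℝ` of a geometric complex on an open set `U`;
* `Mol B W δ` : a smooth map `Λ : E → V → ℝ` which is `δ`-close to `lam` on `W` and whose derivative
  is EXACTLY `e t - e s` on `x t - x s` whenever `s, t` have weight `≥ δ`.
-/

set_option autoImplicit false
set_option linter.unusedSectionVars false

open Set Filter Topology Function Metric MeasureTheory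
open scoped ContDiff Convolution

noncomputable section

namespace Crest.Agent.X212.Mol27

variable {E : Type} [NormedAddCommGroup E] [NormedSpace ℝ E]
variable {V : Type} [Fintype V] [DecidableEq V]

/-- the vertex `s` of the big simplex -/
def e (s : V) : V → ℝ := Pi.single s 1

/-- `μ` is a point of the face `σ` of the big simplex -/
def InF (σ : Finset V) (μ : V → ℝ) : Prop :=
  (∀ s, 0 ≤ μ s) ∧ ∑ s, μ s = 1 ∧ ∀ s, μ s ≠ 0 → s ∈ σ

/-- the point with coordinates `μ` -/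
def pt (x : V → E) (μ : V → ℝ) : E := ∑ s, μ s • x s

/-- barycentric coordinates of a finite geometric complex on the open set `U` -/
structure Bary (E : Type) [NormedAddCommGroup E] [NormedSpace ℝ E] (V : Type) [Fintype V] where
  x : V → E
  faces : Set (Finset V)
  U : Set E
  lam : E → V → ℝ
  isOpen : IsOpen U
  lip : LocallyLipschitzOn U lam
  car : ∀ y ∈ U, ∃ σ ∈ faces, InF σ (lam y)
  pos : ∀ y ∈ U, pt x (lam y) = y
  uniq : ∀ σ ∈ faces, ∀ μ, InF σ μ → pt x μ ∈ U → lam (pt x μ) = μ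

theorem pt_add (x : V → E) (μ ν : V → ℝ) : pt x (μ + ν) = pt x μ + pt x ν := by
  simp [pt, add_smul, Finset.sum_add_distrib]

theorem pt_sub (x : V → E) (μ ν : V → ℝ) : pt x (μ - ν) = pt x μ - pt x ν := by
  simp [pt, sub_smul, Finset.sum_sub_distrib]

theorem pt_smul (x : V → E) (r : ℝ) (μ : V → ℝ) : pt x (r • μ) = r • pt x μ := by
  simp [pt, Finset.smul_sum, mul_smul]

@[simp] theorem pt_e (x : V → E) (s : V) : pt x (e s) = x s := by
  simp [pt, e, Pi.single_apply, ite_smul]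

@[simp] theorem pt_zero (x : V → E) : pt x 0 = 0 := by simp [pt]

theorem pt_sum {ι : Type} (x : V → E) (S : Finset ι) (μ : ι → V → ℝ) :
    pt x (∑ i ∈ S, μ i) = ∑ i ∈ S, pt x (μ i) := by
  simp only [pt, Finset.sum_apply, Finset.sum_smul]
  exact Finset.sum_comm

/-- `pt` as a continuous linear map -/
def ptL (x : V → E) : (V → ℝ) →L[ℝ] E :=
  LinearMap.toContinuousLinearMap
    { toFun := pt x, map_add' := pt_add x, map_smul' := pt_smul x }

@[simp] theorem ptL_apply (x : V → E) (μ : V → ℝ) : ptL x μ = pt x μ := rfl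

@[simp] theorem sum_e (s : V) : ∑ t, e s t = 1 := by simp [e, Pi.single_apply]

theorem e_apply (s t : V) : e s t = if t = s then 1 else 0 := by simp [e, Pi.single_apply]

namespace Bary

variable (B : Bary E V)

theorem cont : ContinuousOn B.lam B.U := B.lip.continuousOn

theorem nonneg {y : E} (hy : y ∈ B.U) (s : V) : 0 ≤ B.lam y s :=
  (B.car y hy).choose_spec.2.1 s

theorem sum_one {y : E} (hy : y ∈ B.U) : ∑ s, B.lam y s = 1 :=
  (B.car y hy).choose_spec.2.2.1

theorem le_one {y : E} (hy : y ∈ B.U) (s : V) : B.lam y s ≤ 1 :=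
  (B.sum_one hy) ▸ Finset.single_le_sum (fun t _ => B.nonneg hy t) (Finset.mem_univ s)

theorem norm_le {y : E} (hy : y ∈ B.U) : ‖B.lam y‖ ≤ 1 :=
  (pi_norm_le_iff_of_nonneg zero_le_one).2 fun s => by
    rw [Real.norm_of_nonneg (B.nonneg hy s)]; exact B.le_one hy s

/-- moving inside the carrier -/
theorem move {y : E} (hy : y ∈ B.U) {w : V → ℝ} (h0 : ∑ s, w s = 0)
    (hs : ∀ s, w s ≠ 0 → B.lam y s ≠ 0) (hn : ∀ s, 0 ≤ B.lam y s + w s)
    (hU : y + pt B.x w ∈ B.U) : B.lam (y + pt B.x w) = B.lam y + w := by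
  obtain ⟨σ, hσ, h1, h2, h3⟩ := B.car y hy
  have e1 : y + pt B.x w = pt B.x (B.lam y + w) := by rw [pt_add, B.pos y hy]
  rw [e1] at hU ⊢
  refine B.uniq σ hσ _ ⟨hn, by simp [Finset.sum_add_distrib, h2, h0], fun s h => ?_⟩ hU
  by_cases hw : w s = 0
  · exact h3 s (by simpa [hw] using h)
  · exact h3 s (hs s hw)

end Bary

/-- tangent vectors of the face spanned by the vertices of weight `≥ δ` -/
def Tg (δ : ℝ) (μ : V → ℝ) (w : V → ℝ) : Prop := ∑ s, w s = 0 ∧ ∀ s, w s ≠ 0 → δ ≤ μ s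

/-- a mollification of the barycentric coordinates on `W` -/
structure Mol (B : Bary E V) (W : Set E) (δ : ℝ) where
  Λ : E → V → ℝ
  smooth : ContDiff ℝ ∞ Λ
  nonneg : ∀ y s, 0 ≤ Λ y s
  sum_le : ∀ y, ∑ s, Λ y s ≤ 1
  sum_one : ∀ y ∈ W, ∑ s, Λ y s = 1
  close : ∀ y ∈ W, ∀ s, |Λ y s - B.lam y s| < δ
  supp : ∀ y ∈ W, ∀ s, Λ y s ≠ 0 → ∃ σ ∈ B.faces, s ∈ σ ∧ ∀ t, δ ≤ B.lam y t → t ∈ σ
  der : ∀ y ∈ W, ∀ w, Tg δ (B.lam y) w → fderiv ℝ Λ y (pt B.x w) = w
  pos : ∀ y ∈ W, pt B.x (Λ y) = y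

end Crest.Agent.X212.Mol27
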