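import Crest.Agent.X212.Mol27.Defs

/-!
# X212 / Mol27 (helper27): existence of mollifications
-/

set_option autoImplicit false
set_option linter.unusedSectionVars false

open Set Filter Topology Function Metric MeasureTheory
open scoped ContDiff Convolution

noncomputable section

namespace Crest.Agent.X212.Mol27

variable {E : Type} [NormedAddCommGroup E] [NormedSpace ℝ E] [FiniteDimensional ℝ E]

/-- an average of radius `η` -/
theorem exists_avg (η : ℝ) (hη : 0 < η) {F : Type} [NormedAddCommGroup F] [NormedSpace ℝ F]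
    [CompleteSpace F] {U : Set E} {g : E → F} (hU : IsOpen U) (hg : ContinuousOn g U)
    (hb : ∀ y ∈ U, ‖g y‖ ≤ 1) :
    ∃ A : E → F, ContDiff ℝ ∞ A ∧
      (∀ (ℓ : F →L[ℝ] ℝ) (y : E) (c : ℝ), (∀ t ∈ ball (0 : E) η, ℓ (U.indicator g (y - t)) ≤ c) →
        ℓ (A y) ≤ c) ∧
      (∀ (y y' : E) (c : F),
        (∀ t ∈ ball (0 : E) η, U.indicator g (y' - t) = U.indicator g (y - t) + c) →
        A y' = A y + c) ∧
      (∀ (L : F →L[ℝ] E) (y : E), (∀ t ∈ ball (0 : E) η, L (U.indicator g (y - t)) = y - t) →
        L (A y) = y) := by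
  borelize E
  let μ : Measure E := Measure.addHaar
  let φ : ContDiffBump (0 : E) := ⟨η / 2, η, by linarith, by linarith⟩
  have hsup : ∀ t, t ∉ ball (0 : E) η → φ.normed μ t = 0 := fun t ht => by
    by_contra h
    exact ht (φ.support_normed_eq (μ := μ) ▸ (show t ∈ support (φ.normed μ) from h))
  have hm : AEStronglyMeasurable (U.indicator g) μ :=
    (aestronglyMeasurable_indicator_iff hU.measurableSet).2 (hg.aestronglyMeasurable hU.measurableSet)
  have hli : LocallyIntegrable (U.indicator g) μ := by
    refine (locallyIntegrable_const (μ := μ) (1 : ℝ)).mono hm (Eventually.of_forall fun y => ?_)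
    by_cases hy : y ∈ U
    · simpa [hy] using hb y hy
    · simp [hy]
  have hint : ∀ y, Integrable (fun t => φ.normed μ t • U.indicator g (y - t)) μ := fun y =>
    (φ.hasCompactSupport_normed.convolutionExists_left (ContinuousLinearMap.lsmul ℝ ℝ)
      φ.continuous_normed hli y).integrable
  have hdef : ∀ y, (φ.normed μ ⋆[ContinuousLinearMap.lsmul ℝ ℝ, μ] U.indicator g) y =
      ∫ t, φ.normed μ t • U.indicator g (y - t) ∂μ := fun y => rfl
  refine ⟨φ.normed μ ⋆[ContinuousLinearMap.lsmul ℝ ℝ, μ] U.indicator g,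
    φ.hasCompactSupport_normed.contDiff_convolution_left _ φ.contDiff_normed hli, ?_, ?_, ?_⟩
  · intro ℓ y c h
    rw [hdef, ← ℓ.integral_comp_comm (hint y)]
    have h1 : ∫ t, φ.normed μ t • c ∂μ = c := φ.integral_normed_smul (μ := μ) c
    rw [← h1]
    refine integral_mono (ℓ.integrable_comp (hint y)) (φ.integrable_normed.smul_const c) fun t => ?_
    by_cases ht : t ∈ ball (0 : E) η
    · simpa using mul_le_mul_of_nonneg_left (h t ht) (φ.nonneg_normed (μ := μ) t)
    · simp [hsup t ht]
  · intro y y' c h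
    rw [hdef, hdef]
    have h1 : ∫ t, φ.normed μ t • c ∂μ = c := φ.integral_normed_smul (μ := μ) c
    conv_rhs => rw [← h1]
    rw [← integral_add (hint y) (φ.integrable_normed.smul_const c)]
    refine integral_congr_ae (Eventually.of_forall fun t => ?_)
    by_cases ht : t ∈ ball (0 : E) η
    · simp only [h t ht, smul_add]
    · simp [hsup t ht]
  · intro L y h
    rw [hdef, ← L.integral_comp_comm (hint y)]
    have h1 : ∫ t, φ.normed μ t • y ∂μ = y := φ.integral_normed_smul (μ := μ) y
    have h2 : Integrable (fun t : E => φ.normed μ t • t) μ :=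
      (φ.continuous_normed.smul continuous_id).integrable_of_hasCompactSupport
        φ.hasCompactSupport_normed.smul_right
    have h3 : ∫ t, φ.normed μ t • t ∂μ = 0 := by
      have h4 := integral_neg_eq_self (fun t : E => φ.normed μ t • t) μ
      simp only [φ.normed_neg, smul_neg, integral_neg] at h4
      have h5 : (2 : ℝ) • ∫ t, φ.normed μ t • t ∂μ = 0 := by
        rw [two_smul]; nth_rewrite 1 [← h4]; exact neg_add_cancel _
      simpa using h5
    have h6 : ∫ t, L (φ.normed μ t • U.indicator g (y - t)) ∂μ =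
        ∫ t, (φ.normed μ t • y - φ.normed μ t • t) ∂μ := by
      refine integral_congr_ae (Eventually.of_forall fun t => ?_)
      by_cases ht : t ∈ ball (0 : E) η
      · simp only [map_smul, h t ht, smul_sub]
      · simp [hsup t ht]
    rw [h6, integral_sub (φ.integrable_normed.smul_const y) h2, h1, h3, sub_zero]

variable {V : Type} [Fintype V] [DecidableEq V]

/-- **mollification** of barycentric coordinates near a compact set -/
theorem Bary.exists_mol (B : Bary E V) {K : Set E} (hK : IsCompact K) (hKU : K ⊆ B.U) {δ : ℝ}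
    (hδ : 0 < δ) : ∃ W : Set E, IsOpen W ∧ K ⊆ W ∧ IsCompact (closure W) ∧ closure W ⊆ B.U ∧
      Nonempty (Mol B W δ) := by
  have : ProperSpace E := FiniteDimensional.proper ℝ E
  obtain ⟨r3, hr3, h3⟩ := hK.exists_cthickening_subset_open B.isOpen hKU
  set r := r3 / 3 with hr
  have hr0 : 0 < r := by positivity
  have hK3 : IsCompact (cthickening r3 K) := hK.cthickening
  obtain ⟨η0, hη0, hu⟩ := Metric.uniformContinuousOn_iff.1
    (hK3.uniformContinuousOn_of_continuous (B.cont.mono h3)) (δ / 2) (by positivity)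
  set η := min η0 r with hηd
  have hη : 0 < η := lt_min hη0 hr0
  obtain ⟨Λ, a1, a2, a3, a4⟩ := exists_avg η hη B.isOpen B.cont fun y hy => B.norm_le hy
  have near : ∀ y ∈ thickening r K, ∀ z, dist z y < 2 * r → z ∈ cthickening r3 K := by
    intro y hy z hz
    obtain ⟨k, hk, hyk⟩ := mem_thickening_iff.1 hy
    refine mem_cthickening_of_dist_le z k r3 K hk ?_
    have := dist_triangle z y k
    linarith
  have hW : ∀ y ∈ thickening r K, y ∈ cthickening r3 K := fun y hy =>
    near y hy y (by rw [dist_self]; positivity)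
  have hb : ∀ y ∈ thickening r K, ∀ t ∈ ball (0 : E) η, y - t ∈ cthickening r3 K ∧
      ∀ s, |B.lam (y - t) s - B.lam y s| < δ / 2 := by
    intro y hy t ht
    have ht' : dist (y - t) y < η := by simpa [dist_eq_norm] using ht
    have h1 : y - t ∈ cthickening r3 K :=
      near y hy _ (by have := min_le_right η0 r; linarith)
    refine ⟨h1, fun s => ?_⟩
    have h2 := hu _ h1 _ (hW y hy) (ht'.trans_le (min_le_left _ _))
    exact (dist_le_pi_dist (B.lam (y - t)) (B.lam y) s).trans_lt h2
  have ind : ∀ z, (∀ s, 0 ≤ B.U.indicator B.lam z s) ∧ ∑ s, B.U.indicator B.lam z s ≤ 1 := by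
    intro z
    by_cases hz : z ∈ B.U
    · rw [indicator_of_mem hz]; exact ⟨B.nonneg hz, (B.sum_one hz).le⟩
    · rw [indicator_of_notMem hz]; simp
  let pr : V → (V → ℝ) →L[ℝ] ℝ := fun s => ContinuousLinearMap.proj s
  let sm : (V → ℝ) →L[ℝ] ℝ := ∑ s, pr s
  have hsm : ∀ μ : V → ℝ, sm μ = ∑ s, μ s := fun μ => by simp [sm, pr]
  have up : ∀ y s c, (∀ t ∈ ball (0 : E) η, B.U.indicator B.lam (y - t) s ≤ c) → Λ y s ≤ c :=
    fun y s c h => a2 (pr s) y c h
  have dn : ∀ y s c, (∀ t ∈ ball (0 : E) η, c ≤ B.U.indicator B.lam (y - t) s) → c ≤ Λ y s :=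
    fun y s c h => by
      have := a2 (-pr s) y (-c) fun t ht => by simpa [pr] using h t ht
      simpa [pr] using this
  have hcl : closure (thickening r K) ⊆ cthickening r3 K :=
    (closure_thickening_subset_cthickening r K).trans (cthickening_mono (by linarith) K)
  refine ⟨thickening r K, isOpen_thickening, self_subset_thickening hr0 K,
    hK3.of_isClosed_subset isClosed_closure hcl, hcl.trans h3, ⟨⟨Λ, a1, ?_, ?_, ?_, ?_, ?_, ?_, ?_⟩⟩⟩
  · exact fun y s => dn y s 0 fun t _ => (ind _).1 s
  · intro y
    rw [← hsm]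
    exact a2 sm y 1 fun t _ => by rw [hsm]; exact (ind _).2
  · intro y hy
    rw [← hsm]
    refine le_antisymm (a2 sm y 1 fun t _ => by rw [hsm]; exact (ind _).2) ?_
    have := a2 (-sm) y (-1) fun t ht => by
      have h1 := h3 (hb y hy t ht).1
      simp [hsm, indicator_of_mem h1, B.sum_one h1]
    simpa using this
  · intro y hy s
    have h1 := up y s (B.lam y s + δ / 2) fun t ht => by
      have h := hb y hy t ht
      rw [indicator_of_mem (h3 h.1)]
      linarith [(abs_lt.1 (h.2 s)).2]
    have h2 := dn y s (B.lam y s - δ / 2) fun t ht => by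
      have h := hb y hy t ht
      rw [indicator_of_mem (h3 h.1)]
      linarith [(abs_lt.1 (h.2 s)).1]
    rw [abs_lt]; constructor <;> linarith
  · intro y hy s hs
    by_contra hc
    refine hs (le_antisymm (up y s 0 fun t ht => ?_) (dn y s 0 fun t _ => (ind _).1 s))
    have h := hb y hy t ht
    rw [indicator_of_mem (h3 h.1)]
    obtain ⟨σ, hσ, -, -, k3⟩ := B.car _ (h3 h.1)
    by_contra hn
    refine hc ⟨σ, hσ, k3 s (fun h0 => hn h0.le), fun u hu => k3 u fun h0 => ?_⟩
    have := (abs_lt.1 (h.2 u)).1
    linarith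
  · intro y hy w hw
    have hev : ∀ᶠ ρ : ℝ in 𝓝 0, Λ (y + ρ • pt B.x w) = Λ y + ρ • w := by
      have e1 : ∀ᶠ ρ : ℝ in 𝓝 0, ‖ρ • pt B.x w‖ < r := by
        have : Continuous fun ρ : ℝ => ‖ρ • pt B.x w‖ := by fun_prop
        exact this.continuousAt.eventually_lt continuousAt_const (by simpa using hr0)
      have e2 : ∀ᶠ ρ : ℝ in 𝓝 0, ‖ρ • w‖ < δ / 2 := by
        have : Continuous fun ρ : ℝ => ‖ρ • w‖ := by fun_prop
        exact this.continuousAt.eventually_lt continuousAt_const (by simpa using hδ)
      filter_upwards [e1, e2] with ρ k1 k2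
      refine a3 y _ _ fun t ht => ?_
      have h := hb y hy t ht
      have hin : y - t + pt B.x (ρ • w) ∈ B.U := by
        refine h3 (near y hy _ ?_)
        rw [pt_smul, dist_eq_norm, show y - t + ρ • pt B.x w - y = ρ • pt B.x w - t by abel]
        have h4 : ‖t‖ < η := by simpa using ht
        have := norm_sub_le (ρ • pt B.x w) t
        have := min_le_right η0 r
        linarith
      have big : ∀ s, w s ≠ 0 → δ / 2 < B.lam (y - t) s := fun s hs => by
        have := hw.2 s hs
        have := (abs_lt.1 (h.2 s)).1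
        linarith
      have hm := B.move (h3 h.1) (w := ρ • w) (by simp [← Finset.mul_sum, hw.1])
        (fun s hs => by
          have : w s ≠ 0 := fun h0 => hs (by simp [h0])
          have := big s this
          exact fun h0 => by linarith)
        (fun s => by
          by_cases hs : w s = 0
          · simpa [hs] using B.nonneg (h3 h.1) s
          · have k3 := (norm_le_pi_norm (ρ • w) s).trans_lt k2
            have := big s hs
            have := (abs_lt.1 (show |(ρ • w) s| < δ / 2 from k3)).1
            linarith) hin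
      rw [show y + ρ • pt B.x w - t = y - t + pt B.x (ρ • w) by rw [pt_smul]; abel,
        indicator_of_mem hin, indicator_of_mem (h3 h.1), hm]
    have d1 : HasDerivAt (fun ρ : ℝ => Λ (y + ρ • pt B.x w)) (fderiv ℝ Λ y (pt B.x w)) 0 := by
      have l1 : HasDerivAt (fun ρ : ℝ => y + ρ • pt B.x w) (pt B.x w) 0 := by
        simpa using ((hasDerivAt_id (0 : ℝ)).smul_const (pt B.x w)).const_add y
      have l2 : HasFDerivAt Λ (fderiv ℝ Λ y) (y + (0 : ℝ) • pt B.x w) := by
        simpa using (a1.differentiable (by simp) y).hasFDerivAt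
      exact l2.comp_hasDerivAt 0 l1
    have d2 : HasDerivAt (fun ρ : ℝ => Λ y + ρ • w) w 0 := by
      simpa using ((hasDerivAt_id (0 : ℝ)).smul_const w).const_add (Λ y)
    exact d1.unique (d2.congr_of_eventuallyEq hev)
  · intro y hy
    refine a4 (ptL B.x) y fun t ht => ?_
    have h := h3 (hb y hy t ht).1
    rw [indicator_of_mem h, ptL_apply, B.pos _ h]

end Crest.Agent.X212.Mol27
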