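import Crest.Agent.X212.Mol27.Real

/-!
# X212 / Mol27 (helper27): the upward field

`upV c δ μ = ∑_{s<t} c s t ψ(μ s) ψ(μ t) (e t - e s)` on the big simplex, and its lift `M.fld c`.
-/

set_option autoImplicit false
set_option linter.unusedSectionVars false

open Set Filter Topology Function Metric
open scoped ContDiff NNReal
open Crest.Agent.X212.Sm10

noncomputable section

namespace Crest.Agent.X212.Mol27

/-- zero below `2 δ`, the identity above `3 δ` -/
def psi (δ x : ℝ) : ℝ := x * Real.smoothTransition ((x - 2 * δ) / δ)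

theorem contDiff_psi (δ : ℝ) : ContDiff ℝ ∞ (psi δ) :=
  contDiff_id.mul (Real.smoothTransition.contDiff.comp ((contDiff_id.sub contDiff_const).div_const δ))

theorem psi_zero {δ x : ℝ} (hδ : 0 < δ) (h : x ≤ 2 * δ) : psi δ x = 0 := by
  rw [psi, Real.smoothTransition.zero_of_nonpos (div_nonpos_of_nonpos_of_nonneg (by linarith) hδ.le),
    mul_zero]

theorem psi_pos {δ x : ℝ} (hδ : 0 < δ) (h : 2 * δ < x) : 0 < psi δ x :=
  mul_pos (by linarith) (Real.smoothTransition.pos_of_pos (div_pos (by linarith) hδ))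

theorem psi_nonneg {δ : ℝ} (hδ : 0 < δ) (x : ℝ) : 0 ≤ psi δ x :=
  (le_or_gt x (2 * δ)).elim (fun h => (psi_zero hδ h).ge) fun h => (psi_pos hδ h).le

theorem psi_eq {δ x : ℝ} (hδ : 0 < δ) (h : 3 * δ ≤ x) : psi δ x = x := by
  rw [psi, Real.smoothTransition.one_of_one_le ((one_le_div hδ).2 (by linarith)), mul_one]

theorem psi_le {δ x : ℝ} (h : 0 ≤ x) : psi δ x ≤ x :=
  mul_le_of_le_one_right h (Real.smoothTransition.le_one _)

theorem lt_of_psi_ne {δ x : ℝ} (hδ : 0 < δ) (h : psi δ x ≠ 0) : 2 * δ < x :=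
  not_le.1 fun h' => h (psi_zero hδ h')

section up

variable {P : Type} [PartialOrder P] [Fintype P] [DecidableEq P]

open Classical in
/-- the rate at which weight moves from `s` up to `t` -/
def rate (c : P → P → ℝ) (δ : ℝ) (μ : P → ℝ) (s t : P) : ℝ :=
  if s < t then c s t * (psi δ (μ s) * psi δ (μ t)) else 0

/-- the upward field on the big simplex -/
def upV (c : P → P → ℝ) (δ : ℝ) (μ : P → ℝ) : P → ℝ :=
  ∑ s, ∑ t, rate c δ μ s t • (e t - e s)

/-- the pairing of a vertex function with weights -/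
def pr (g μ : P → ℝ) : ℝ := ∑ s, g s * μ s

theorem pr_add (g μ ν : P → ℝ) : pr g (μ + ν) = pr g μ + pr g ν := by
  simp [pr, mul_add, Finset.sum_add_distrib]

theorem pr_smul (g : P → ℝ) (r : ℝ) (μ : P → ℝ) : pr g (r • μ) = r * pr g μ := by
  simp only [pr, Finset.mul_sum, Pi.smul_apply, smul_eq_mul]
  exact Finset.sum_congr rfl fun _ _ => by ring

/-- the pairing as a continuous linear map -/
def prL (g : P → ℝ) : (P → ℝ) →L[ℝ] ℝ :=
  LinearMap.toContinuousLinearMap { toFun := pr g, map_add' := pr_add g, map_smul' := pr_smul g }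

@[simp] theorem prL_apply (g μ : P → ℝ) : prL g μ = pr g μ := rfl

theorem pr_sub (g μ ν : P → ℝ) : pr g (μ - ν) = pr g μ - pr g ν := (prL g).map_sub μ ν

@[simp] theorem pr_e (g : P → ℝ) (s : P) : pr g (e s) = g s := by
  simp [pr, e_apply]

theorem pr_e_left (s : P) (μ : P → ℝ) : pr (e s) μ = μ s := by
  simp [pr, e_apply]

theorem pr_upV (g : P → ℝ) (c : P → P → ℝ) (δ : ℝ) (μ : P → ℝ) :
    pr g (upV c δ μ) = ∑ s, ∑ t, rate c δ μ s t * (g t - g s) := by
  rw [← prL_apply, upV, map_sum]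
  refine Finset.sum_congr rfl fun s _ => ?_
  rw [map_sum]
  refine Finset.sum_congr rfl fun t _ => ?_
  rw [map_smul, prL_apply, pr_sub, pr_e, pr_e, smul_eq_mul]

variable {c : P → P → ℝ} {δ : ℝ} {μ : P → ℝ}

theorem rate_nonneg (hc : ∀ s t, 0 ≤ c s t) (hδ : 0 < δ) (μ : P → ℝ) (s t : P) :
    0 ≤ rate c δ μ s t := by
  unfold rate
  split_ifs
  · exact mul_nonneg (hc s t) (mul_nonneg (psi_nonneg hδ _) (psi_nonneg hδ _))
  · exact le_rfl

theorem rate_ne (hδ : 0 < δ) {s t : P} (h : rate c δ μ s t ≠ 0) :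
    s < t ∧ c s t ≠ 0 ∧ 2 * δ < μ s ∧ 2 * δ < μ t := by
  unfold rate at h
  split_ifs at h with h1
  · exact ⟨h1, left_ne_zero_of_mul h, lt_of_psi_ne hδ (left_ne_zero_of_mul (right_ne_zero_of_mul h)),
      lt_of_psi_ne hδ (right_ne_zero_of_mul (right_ne_zero_of_mul h))⟩
  · exact absurd rfl h

theorem rate_pos (hδ : 0 < δ) {s t : P} (h : s < t) (hc : 0 < c s t) (hs : 2 * δ < μ s)
    (ht : 2 * δ < μ t) : 0 < rate c δ μ s t := by
  rw [rate, if_pos h]
  exact mul_pos hc (mul_pos (psi_pos hδ hs) (psi_pos hδ ht))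

theorem contDiff_rate (c : P → P → ℝ) (δ : ℝ) (s t : P) :
    ContDiff ℝ ∞ fun μ : P → ℝ => rate c δ μ s t := by
  unfold rate
  split_ifs
  · exact contDiff_const.mul (((contDiff_psi δ).comp (contDiff_apply ℝ ℝ s)).mul
      ((contDiff_psi δ).comp (contDiff_apply ℝ ℝ t)))
  · exact contDiff_const

theorem contDiff_upV (c : P → P → ℝ) (δ : ℝ) : ContDiff ℝ ∞ (upV c δ) :=
  ContDiff.sum fun s _ => ContDiff.sum fun t _ => (contDiff_rate c δ s t).smul contDiff_const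

theorem sum_upV (c : P → P → ℝ) (δ : ℝ) (μ : P → ℝ) : ∑ s, upV c δ μ s = 0 := by
  have := pr_upV (fun _ => 1) c δ μ
  simpa [pr] using this

theorem upV_apply (c : P → P → ℝ) (δ : ℝ) (μ : P → ℝ) (r : P) :
    upV c δ μ r = ∑ s, rate c δ μ s r - ∑ t, rate c δ μ r t := by
  rw [← pr_e_left r (upV c δ μ), pr_upV]
  simp only [mul_sub, Finset.sum_sub_distrib, e_apply, mul_ite, mul_one, mul_zero,
    Finset.sum_ite_eq', Finset.mem_univ, if_true]
  congr 1
  rw [Finset.sum_comm]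
  simp only [Finset.sum_ite_eq', Finset.mem_univ, if_true]

theorem upV_ne (hδ : 0 < δ) {r : P} (h : upV c δ μ r ≠ 0) : 2 * δ < μ r := by
  by_contra hn
  refine h ?_
  rw [upV_apply, Finset.sum_eq_zero, Finset.sum_eq_zero, sub_zero]
  · exact fun t _ => by_contra fun k => hn (rate_ne hδ k).2.2.1
  · exact fun t _ => by_contra fun k => hn (rate_ne hδ k).2.2.2

/-- a function monotone on the big vertices increases -/
theorem pr_upV_nonneg (hc : ∀ s t, 0 ≤ c s t) (hδ : 0 < δ) {g : P → ℝ}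
    (hg : ∀ s t, s < t → c s t ≠ 0 → 2 * δ < μ s → 2 * δ < μ t → g s ≤ g t) :
    0 ≤ pr g (upV c δ μ) := by
  rw [pr_upV]
  refine Finset.sum_nonneg fun s _ => Finset.sum_nonneg fun t _ => ?_
  by_cases h : rate c δ μ s t = 0
  · simp [h]
  · obtain ⟨h1, h2, h3, h4⟩ := rate_ne hδ h
    exact mul_nonneg (rate_nonneg hc hδ μ s t) (sub_nonneg.2 (hg s t h1 h2 h3 h4))

theorem le_pr_upV (hc : ∀ s t, 0 ≤ c s t) (hδ : 0 < δ) {g : P → ℝ}
    (hg : ∀ s t, s < t → c s t ≠ 0 → 2 * δ < μ s → 2 * δ < μ t → g s ≤ g t) (a b : P) :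
    rate c δ μ a b * (g b - g a) ≤ pr g (upV c δ μ) := by
  rw [pr_upV]
  have nn : ∀ s t, 0 ≤ rate c δ μ s t * (g t - g s) := fun s t => by
    by_cases h : rate c δ μ s t = 0
    · simp [h]
    · obtain ⟨h1, h2, h3, h4⟩ := rate_ne hδ h
      exact mul_nonneg (rate_nonneg hc hδ μ s t) (sub_nonneg.2 (hg s t h1 h2 h3 h4))
  exact (Finset.single_le_sum (f := fun t => rate c δ μ a t * (g t - g a)) (fun t _ => nn a t)
    (Finset.mem_univ b)).trans (Finset.single_le_sum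
      (f := fun s => ∑ t, rate c δ μ s t * (g t - g s))
      (fun s _ => Finset.sum_nonneg fun t _ => nn s t) (Finset.mem_univ a))

/-- it increases strictly if two big vertices have different values -/
theorem pr_upV_pos (hc : ∀ s t, 0 ≤ c s t) (hδ : 0 < δ) {g : P → ℝ}
    (hg : ∀ s t, s < t → c s t ≠ 0 → 2 * δ < μ s → 2 * δ < μ t → g s ≤ g t) {a b : P} (hab : a < b)
    (hcab : 0 < c a b) (ha : 2 * δ < μ a) (hb : 2 * δ < μ b) (hlt : g a < g b) :
    0 < pr g (upV c δ μ) :=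
  (mul_pos (rate_pos hδ hab hcab ha hb) (sub_pos.2 hlt)).trans_le (le_pr_upV hc hδ hg a b)

/-- `|upV r| ≤ C ψ (μ r)` -/
theorem exists_upV_le (c : P → P → ℝ) (hδ : 0 < δ) : ∃ C : ℝ, ∀ μ : P → ℝ, (∀ s, 0 ≤ μ s) →
    (∀ s, μ s ≤ 1) → ∀ r, |upV c δ μ r| ≤ C * psi δ (μ r) := by
  refine ⟨2 * ∑ s, ∑ t, |c s t|, fun μ h0 h1 r => ?_⟩
  have p1 : ∀ s, psi δ (μ s) ≤ 1 := fun s => (psi_le (h0 s)).trans (h1 s)
  have p0 : ∀ s, 0 ≤ psi δ (μ s) := fun s => psi_nonneg hδ _
  have k : ∀ s t, s = r ∨ t = r → |rate c δ μ s t| ≤ |c s t| * psi δ (μ r) := fun s t h => by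
    unfold rate
    split_ifs
    · rw [abs_mul, abs_of_nonneg (mul_nonneg (p0 s) (p0 t))]
      refine mul_le_mul_of_nonneg_left ?_ (abs_nonneg _)
      rcases h with rfl | rfl
      · exact mul_le_of_le_one_right (p0 _) (p1 _)
      · exact mul_le_of_le_one_left (p0 _) (p1 _)
    · simpa using mul_nonneg (abs_nonneg (c s t)) (p0 r)
  have a1 : |∑ s, rate c δ μ s r| ≤ (∑ s, ∑ t, |c s t|) * psi δ (μ r) := by
    rw [Finset.sum_mul]
    refine (Finset.abs_sum_le_sum_abs _ _).trans (Finset.sum_le_sum fun s _ => ?_)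
    exact (k s r (Or.inr rfl)).trans (mul_le_mul_of_nonneg_right
      (Finset.single_le_sum (f := fun t => |c s t|) (fun _ _ => abs_nonneg _) (Finset.mem_univ r)) (p0 r))
  have a2 : |∑ t, rate c δ μ r t| ≤ (∑ s, ∑ t, |c s t|) * psi δ (μ r) := by
    refine ((Finset.abs_sum_le_sum_abs _ _).trans (Finset.sum_le_sum fun t _ => k r t (Or.inl rfl))).trans ?_
    rw [← Finset.sum_mul]
    exact mul_le_mul_of_nonneg_right (Finset.single_le_sum (f := fun s => ∑ t, |c s t|)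
      (fun _ _ => Finset.sum_nonneg fun _ _ => abs_nonneg _) (Finset.mem_univ r)) (p0 r)
  rw [upV_apply]
  have := abs_sub (∑ s, rate c δ μ s r) (∑ t, rate c δ μ r t)
  linarith

end up

/-- a solution of `|f'| ≤ C ψ(f)` does not cross the level `2 δ` -/
theorem big_iff {δ C : ℝ} (hδ : 0 < δ) {f f' : ℝ → ℝ} {a b : ℝ}
    (hf : ∀ t ∈ uIcc a b, HasDerivAt f (f' t) t) (h0 : ∀ t ∈ uIcc a b, f t ∈ Icc (0 : ℝ) 1)
    (hb : ∀ t ∈ uIcc a b, |f' t| ≤ C * psi δ (f t)) : 2 * δ < f a ↔ 2 * δ < f b := by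
  obtain ⟨D, hD⟩ := isCompact_Icc.exists_bound_of_continuousOn
    (((contDiff_psi δ).continuous_deriv (by simp)).continuousOn (s := Icc (0 : ℝ) 1))
  have key : ∀ (g g' : ℝ → ℝ) (a b : ℝ), a ≤ b → (∀ t ∈ Icc a b, HasDerivAt g (g' t) t) →
      (∀ t ∈ Icc a b, g t ∈ Icc (0 : ℝ) 1) → (∀ t ∈ Icc a b, |g' t| ≤ C * psi δ (g t)) →
      2 * δ < g b → 2 * δ < g a := by
    intro g g' a b hab hg h0 hb h
    by_contra hn
    have d : ∀ t ∈ Icc a b, HasDerivAt (fun t => psi δ (g t)) (deriv (psi δ) (g t) * g' t) t :=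
      fun t ht => (((contDiff_psi δ).differentiable (by simp) _).hasDerivAt).comp t (hg t ht)
    have := eq_zero_of_abs_deriv_le_mul_abs_self_of_eq_zero_right (K := D * |C|)
      (f := fun t => psi δ (g t)) (f' := fun t => deriv (psi δ) (g t) * g' t)
      (fun t ht => (d t ht).continuousAt.continuousWithinAt)
      (fun t ht => (d t (Ico_subset_Icc_self ht)).hasDerivWithinAt) (psi_zero hδ (not_lt.1 hn))
      (fun t ht => by
        have ht' := Ico_subset_Icc_self ht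
        have k1 := hD _ (h0 t ht')
        have k2 := (hb t ht').trans (mul_le_mul_of_nonneg_right (le_abs_self C) (psi_nonneg hδ _))
        rw [norm_mul, Real.norm_of_nonneg (psi_nonneg hδ _), mul_assoc]
        exact mul_le_mul k1 k2 (abs_nonneg _) ((norm_nonneg _).trans k1)) b (right_mem_Icc.2 hab)
    exact (psi_pos hδ h).ne' this
  have rev : ∀ a b : ℝ, a ≤ b → (∀ t ∈ Icc a b, HasDerivAt f (f' t) t) →
      (∀ t ∈ Icc a b, f t ∈ Icc (0 : ℝ) 1) → (∀ t ∈ Icc a b, |f' t| ≤ C * psi δ (f t)) →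
      (2 * δ < f a ↔ 2 * δ < f b) := by
    intro a b hab hf h0 hb
    refine ⟨fun h => ?_, key f f' a b hab hf h0 hb⟩
    have m : ∀ t ∈ Icc (-b) (-a), -t ∈ Icc a b := fun t ht => ⟨by linarith [ht.2], by linarith [ht.1]⟩
    have := key (fun t => f (-t)) (fun t => -f' (-t)) (-b) (-a) (by linarith)
      (fun t ht => by
        have := (hf _ (m t ht)).comp t (hasDerivAt_neg t)
        rw [mul_neg_one] at this
        exact this) (fun t ht => h0 _ (m t ht))
      (fun t ht => by rw [abs_neg]; exact hb _ (m t ht)) (by simpa using h)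
    simpa using this
  rcases le_total a b with h | h
  · rw [uIcc_of_le h] at hf h0 hb
    exact rev a b h hf h0 hb
  · rw [uIcc_of_ge h] at hf h0 hb
    exact (rev b a h hf h0 hb).symm

namespace Mol

variable {E : Type} [NormedAddCommGroup E] [NormedSpace ℝ E]
  {P : Type} [PartialOrder P] [Fintype P] [DecidableEq P]
  {B : Bary E P} {W : Set E} {δ : ℝ} (M : Mol B W δ)

theorem le_one (y : E) (s : P) : M.Λ y s ≤ 1 :=
  (Finset.single_le_sum (fun t _ => M.nonneg y t) (Finset.mem_univ s)).trans (M.sum_le y)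

theorem big {y : E} (hy : y ∈ W) {s : P} (h : 2 * δ < M.Λ y s) : δ < B.lam y s := by
  have := (abs_lt.1 (M.close y hy s)).2
  linarith

/-- tangent vectors supported on the big vertices lift exactly -/
theorem der' {y : E} (hy : y ∈ W) {w : P → ℝ} (h0 : ∑ s, w s = 0)
    (hw : ∀ s, w s ≠ 0 → 2 * δ < M.Λ y s) : fderiv ℝ M.Λ y (pt B.x w) = w :=
  M.der y hy w ⟨h0, fun s hs => (M.big hy (hw s hs)).le⟩

/-- the upward field -/
def fld (c : P → P → ℝ) (y : E) : E := pt B.x (upV c δ (M.Λ y))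

theorem contDiff_fld (c : P → P → ℝ) : ContDiff ℝ ∞ (M.fld c) :=
  (ptL B.x).contDiff.comp ((contDiff_upV c δ).comp M.smooth)

theorem exists_bound_fld (c : P → P → ℝ) : ∃ C, ∀ y, ‖M.fld c y‖ ≤ C := by
  obtain ⟨C, hC⟩ := (isCompact_Icc (a := (0 : P → ℝ)) (b := 1)).exists_bound_of_continuousOn
    ((ptL B.x).continuous.comp (contDiff_upV c δ).continuous).continuousOn
  exact ⟨C, fun y => hC _ ⟨fun s => M.nonneg y s, fun s => M.le_one y s⟩⟩

theorem fderiv_fld (hδ : 0 < δ) (c : P → P → ℝ) {y : E} (hy : y ∈ W) :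
    fderiv ℝ M.Λ y (M.fld c y) = upV c δ (M.Λ y) :=
  M.der' hy (sum_upV c δ _) fun _ hs => upV_ne hδ hs

theorem hasDerivAt_curve (hδ : 0 < δ) (c : P → P → ℝ) {γ : ℝ → E} {t : ℝ} (hy : γ t ∈ W)
    (h : HasDerivAt γ (M.fld c (γ t)) t) :
    HasDerivAt (fun t => M.Λ (γ t)) (upV c δ (M.Λ (γ t))) t :=
  M.fderiv_fld hδ c hy ▸ (M.smooth.differentiable (by simp) _).hasFDerivAt.comp_hasDerivAt t h

/-- big vertices lie in one face with every vertex of the support -/
theorem exists_face {y : E} (hy : y ∈ W) {s : P} (hs : M.Λ y s ≠ 0) :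
    ∃ σ ∈ B.faces, s ∈ σ ∧ ∀ t, 2 * δ < M.Λ y t → t ∈ σ :=
  let ⟨σ, h1, h2, h3⟩ := M.supp y hy s hs
  ⟨σ, h1, h2, fun t ht => h3 t (M.big hy ht).le⟩

end Mol

end Crest.Agent.X212.Mol27
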