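import Crest.Agent.X212.Mol27.Pl

/-!
# X212 / Mol27 (helper27): the cutting function of a cocycle

`L.uu z a b = τ(P_b) - τ(M_b)`, `L.phi z a = exp (2 π i uu)`.
-/

set_option autoImplicit false
set_option linter.unusedSectionVars false

open Set Filter Topology Function Metric Classical
open scoped ContDiff NNReal Real
open Crest.Agent.X212.Sm10 Crest.Agent.X212.Hp13 Crest.Agent.X212.Alg36

noncomputable section

namespace Crest.Agent.X212.Mol27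

variable {E : Type} [NormedAddCommGroup E] [NormedSpace ℝ E]
  {P Q : Type} [PartialOrder P] [Fintype P] [PartialOrder Q] [Fintype Q]
  {A : Set P} {B : Set Q} {pr : Q → P} {z : P → P → ℤ} {δ a : ℝ} {L : LC E A δ} {L' : LC E B δ}
  {y : E} {b b' q : P}

/-- what is used of a cocycle: its values on `A × A` -/
structure Zc (A : Set P) (z : P → P → ℤ) : Prop where
  add : ∀ x ∈ A, ∀ y ∈ A, ∀ w ∈ A, x ≤ y → y ≤ w → z x w = z x y + z y w
  nn : ∀ x ∈ A, ∀ y ∈ A, x ≤ y → 0 ≤ z x y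
  le : ∀ x ∈ A, ∀ y ∈ A, x ≤ y → z x y ≤ 1

theorem zc_of (h1 : Coc A z) (h2 : Mono A z) (h3 : Ind26.Spr A z) : Zc A z :=
  ⟨fun x hx y _ w _ a b => h1 x hx x y w a b (.inl le_rfl) (.inl a) (.inl (a.trans b)),
    fun x hx y _ a => h2 x y ⟨a, x, hx, .inl le_rfl, .inl a⟩, h3⟩

theorem zc_zero (A : Set P) : Zc A 0 :=
  ⟨fun _ _ _ _ _ _ _ _ => rfl, fun _ _ _ _ _ => le_rfl, fun _ _ _ _ _ => zero_le_one⟩

theorem Zc.dual (h : Zc A z) : Zc (P := Pᵒᵈ) A fun x y => z y x :=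
  ⟨fun x hx y hy w hw a b => (h.add w hw y hy x hx b a).trans (add_comm _ _),
    fun x hx y hy a => h.nn y hy x hx a, fun x hx y hy a => h.le y hy x hx a⟩

theorem Zc.self (h : Zc A z) (hb : b ∈ A) : z b b = 0 := by
  linarith [h.add b hb b hb b hb le_rfl le_rfl]

/-- the vertices over the sheet of `b` -/
def SP (A : Set P) (z : P → P → ℤ) (b : P) : Set P := Op A ∪ {q | q ∈ A ∧ b ≤ q ∧ 0 < z b q}

/-- the vertices under the sheet of `b` -/
def SM (A : Set P) (z : P → P → ℤ) (b : P) : Set P := SP (P := Pᵒᵈ) A (fun x y => z y x) b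

theorem Zc.not_SP (h : Zc A z) (hb : b ∈ A) : b ∉ SP A z b :=
  fun k => k.elim (fun k => k.1 hb) fun k => k.2.2.ne' (h.self hb)

theorem Zc.SP_up (h : Zc A z) (hA : A.OrdConnected) (hb : b ∈ A) {s t : P} (hs : s ∈ SP A z b)
    (k : s ≤ t) : t ∈ SP A z b := by
  rcases hs with hs | ⟨h1, h2, h3⟩
  · exact .inl (op_of_le hA hs k)
  by_cases ht : t ∈ A
  · exact .inr ⟨ht, h2.trans k, by linarith [h.add b hb s h1 t ht h2 k, h.nn s h1 t ht k]⟩
  · exact .inl ⟨ht, s, h1, k⟩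

theorem Zc.SP_iff (h : Zc A z) (hb : b ∈ A) (hb' : b' ∈ A) (k : b ≤ b') (e : z b b' = 0)
    (c : Cm b' q) : q ∈ SP A z b ↔ q ∈ SP A z b' := by
  refine or_congr_right ⟨fun ⟨h1, h2, h3⟩ => ?_, fun ⟨h1, h2, h3⟩ =>
    ⟨h1, k.trans h2, by linarith [h.add b hb b' hb' q h1 k h2]⟩⟩
  rcases c with c | c
  · exact ⟨h1, c, by linarith [h.add b hb b' hb' q h1 k c]⟩
  · linarith [h.add b hb q h1 b' hb' h2 c, h.nn q h1 b' hb' c]

theorem Zc.SM_iff (h : Zc A z) (hb : b ∈ A) (hb' : b' ∈ A) (k : b ≤ b') (e : z b b' = 0)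
    (c : Cm b q) : q ∈ SM A z b ↔ q ∈ SM A z b' := (h.dual.SP_iff hb' hb k e c.symm).symm

theorem Zc.SP_top (h : Zc A z) (hb : b ∈ A) (hb' : b' ∈ A) (k : b ≤ b') (e : 0 < z b b') :
    SP A z b' = Op A := union_eq_self_of_subset_right fun q ⟨h1, h2, h3⟩ => by
  linarith [h.add b hb b' hb' q h1 k h2, h.le b hb q h1 (k.trans h2)]

theorem Zc.SM_bot (h : Zc A z) (hb : b ∈ A) (hb' : b' ∈ A) (k : b ≤ b') (e : 0 < z b b') :
    SM A z b = Om A := h.dual.SP_top hb' hb k e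

theorem Zc.SM_compl (h : Zc A z) (hA : A.OrdConnected) (hb : b ∈ A) (hb' : b' ∈ A) (k : b ≤ b')
    (e : 0 < z b b') (c : Cm b q) (c' : Cm b' q) : q ∈ SM A z b' ↔ q ∉ SP A z b := by
  by_cases hq : q ∈ A
  · have e1 : q ∈ SP A z b ↔ b ≤ q ∧ 0 < z b q :=
      ⟨fun n => n.elim (fun n => absurd hq n.1) (·.2), fun n => .inr ⟨hq, n⟩⟩
    have e2 : q ∈ SM A z b' ↔ q ≤ b' ∧ 0 < z q b' :=
      ⟨fun n => n.elim (fun n => absurd hq n.1) (·.2), fun n => .inr ⟨hq, n⟩⟩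
    rw [e1, e2]
    refine ⟨fun ⟨h1, h2⟩ ⟨h3, h4⟩ => by linarith [h.add b hb q hq b' hb' h3 h1, h.le b hb b' hb' k],
      fun n => ?_⟩
    rcases c with c | c
    · rcases c' with c' | c'
      · exact absurd ⟨c, by linarith [h.add b hb b' hb' q hq k c', h.nn b' hb' q hq c']⟩ n
      · exact ⟨c', by linarith [h.add b hb q hq b' hb' c c', not_lt.1 fun l => n ⟨c, l⟩]⟩
    · exact ⟨c.trans k, by linarith [h.add q hq b hb b' hb' c k, h.nn q hq b hb c]⟩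
  · have e1 : q ∈ SP A z b ↔ q ∈ Op A := ⟨fun n => n.elim id fun n => absurd n.1 hq, .inl⟩
    have e2 : q ∈ SM A z b' ↔ q ∈ Om A := ⟨fun n => n.elim id fun n => absurd n.1 hq, .inl⟩
    rw [e1, e2]
    exact ⟨fun ⟨_, x, hx, h1⟩ ⟨_, w, hw, h2⟩ => hq (hA.out hw hx ⟨h2, h1⟩),
      fun n => c.elim (fun c => absurd ⟨hq, b, hb, c⟩ n) fun c => ⟨hq, b, hb, c⟩⟩

namespace LC

variable (L z a) in
/-- the real lift of the cutting function based at `b` -/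
def uu (b : P) (y : E) : ℝ := tau a (L.w (SP A z b) y) - tau a (L.w (SM A z b) y)

theorem uu_dual (b : P) (y : E) : uu (P := Pᵒᵈ) (fun x y => z y x) a L.dual b y = -L.uu z a b y :=
  (neg_sub _ _).symm

theorem contDiffOn_uu (L : LC E A δ) (z : P → P → ℤ) (a : ℝ) (b : P) :
    ContDiffOn ℝ ∞ (L.uu z a b) L.U :=
  ((contDiff_tau a).comp_contDiffOn (L.contDiffOn_w _)).sub
    ((contDiff_tau a).comp_contDiffOn (L.contDiffOn_w _))

theorem uu_le (b : P) (y : E) : L.uu z a b y ≤ 1 := by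
  linarith [tau_le_one a (L.w (SP A z b) y), tau_nonneg a (L.w (SM A z b) y),
    show L.uu z a b y = tau _ _ - tau _ _ from rfl]

theorem le_uu (b : P) (y : E) : -1 ≤ L.uu z a b y := by
  linarith [tau_nonneg a (L.w (SP A z b) y), tau_le_one a (L.w (SM A z b) y),
    show L.uu z a b y = tau _ _ - tau _ _ from rfl]

theorem uu_lt (ha : a < 1 / 2) (h : L.w (SP A z b) y < 1 - a) : L.uu z a b y < 1 := by
  linarith [(tau_le_one a (L.w (SP A z b) y)).lt_of_ne fun e => h.not_ge ((tau_one_iff ha).1 e),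
    tau_nonneg a (L.w (SM A z b) y), show L.uu z a b y = tau _ _ - tau _ _ from rfl]

theorem w_SM_up (h : Zc A z) (hy : y ∈ L.U) (hb : b ∈ A) (hb' : b' ∈ A) (g : δ ≤ L.lam y b)
    (g' : δ ≤ L.lam y b') (k : b ≤ b') (e : 0 < z b b') :
    L.w (SM A z b') y = 1 - L.w (SP A z b) y := by
  rw [← w_compl hy]
  exact wS_congr fun q hq => h.SM_compl L.conv hb hb' k e (cm_mu hy g q hq) (cm_mu hy g' q hq)

/-- change of the base point -/
theorem uu_change (h : Zc A z) (ha : a < 1 / 2) (hy : y ∈ L.U) (hp : L.p y ≤ a) (hm : L.m y ≤ a)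
    (hb : b ∈ A) (hb' : b' ∈ A) (g : δ ≤ L.lam y b) (g' : δ ≤ L.lam y b') (k : b ≤ b') :
    L.uu z a b y = L.uu z a b' y + z b b' := by
  rcases (h.nn b hb b' hb' k).eq_or_lt with e | e
  · rw [uu, uu, ← e, show L.w (SP A z b) y = L.w (SP A z b') y from
      wS_congr fun q hq => h.SP_iff hb hb' k e.symm (cm_mu hy g' q hq),
      show L.w (SM A z b) y = L.w (SM A z b') y from
      wS_congr fun q hq => h.SM_iff hb hb' k e.symm (cm_mu hy g q hq)]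
    simp
  · rw [uu, uu, h.SP_top hb hb' k e, h.SM_bot hb hb' k e, w_SM_up h hy hb hb' g g' k e, tau_symm ha,
      (tau_zero_iff ha).2 (show L.w (Op A) y ≤ a from hp),
      (tau_zero_iff ha).2 (show L.w (Om A) y ≤ a from hm),
      show z b b' = 1 by linarith [h.le b hb b' hb' k]]
    simp

variable (L z a) in
/-- the cutting function -/
def phi (y : E) : Circle :=
  if h : ∃ b ∈ A, L.Big y b then Circle.exp (2 * π * L.uu z a h.choose y) else 1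

theorem exp_add_int (x : ℝ) (n : ℤ) : Circle.exp (2 * π * (x + n)) = Circle.exp (2 * π * x) :=
  Circle.exp_eq_exp.2 ⟨n, by ring⟩

theorem phi_eq (h : Zc A z) (ha : a < 1 / 2) (hy : y ∈ L.U) (hp : L.p y ≤ a) (hm : L.m y ≤ a)
    (hb : b ∈ A) (g : δ ≤ L.lam y b) : L.phi z a y = Circle.exp (2 * π * L.uu z a b y) := by
  have k := exists_bigA hy
  have c := k.choose_spec
  rw [phi, dif_pos k]
  rcases cm_of_le hy g (c.2.le hy) with n | n
  · rw [uu_change h ha hy hp hm hb c.1 g (c.2.le hy) n, exp_add_int]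
  · rw [uu_change h ha hy hp hm c.1 hb (c.2.le hy) g n, exp_add_int]

variable (L a) in
/-- the domain of the cutting function -/
def O : Set E := {y | y ∈ L.U ∧ L.p y < a ∧ L.m y < a}

theorem isOpen_O (L : LC E A δ) (a : ℝ) : IsOpen (L.O a) :=
  ((L.contDiffOn_w (Op A)).continuousOn.prodMk (L.contDiffOn_w (Om A)).continuousOn).isOpen_inter_preimage
    L.isOpen ((isOpen_Iio (a := a)).prod (isOpen_Iio (a := a)))

theorem Big.ev (hy : y ∈ L.U) (g : L.Big y b) : ∀ᶠ x in 𝓝 y, L.Big x b :=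
  ((continuous_apply b).continuousAt.comp
    (L.smooth.continuousOn.continuousAt (L.isOpen.mem_nhds hy))).eventually (lt_mem_nhds g)

theorem phi_ev (h : Zc A z) (ha : a < 1 / 2) (hy : y ∈ L.O a) (hb : b ∈ A) (g : L.Big y b) :
    L.phi z a =ᶠ[𝓝 y] fun x => Circle.exp (2 * π * L.uu z a b x) := by
  filter_upwards [(L.isOpen_O a).mem_nhds hy, g.ev hy.1] with x h1 h2
  exact phi_eq h ha h1.1 h1.2.1.le h1.2.2.le hb (h2.le h1.1)

theorem fderiv_uu (hy : y ∈ L.U) (b : P) (u : E) : fderiv ℝ (L.uu z a b) y u =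
    deriv (tau a) (L.w (SP A z b) y) * fderiv ℝ (L.w (SP A z b)) y u -
      deriv (tau a) (L.w (SM A z b) y) * fderiv ℝ (L.w (SM A z b)) y u := by
  have d := ((hasDerivAt_tau a _).comp_hasFDerivAt y
    (diff hy (L.contDiffOn_w (SP A z b))).hasFDerivAt).sub ((hasDerivAt_tau a _).comp_hasFDerivAt y
    (diff hy (L.contDiffOn_w (SM A z b))).hasFDerivAt)
  rw [show fderiv ℝ (L.uu z a b) y = _ from d.fderiv]
  rfl

variable {v : E → E}

theorem Fld.SP_nonneg (hv : L.Fld v) (h : Zc A z) (hy : y ∈ L.U) (hb : b ∈ A) :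
    0 ≤ fderiv ℝ (L.w (SP A z b)) y (v y) :=
  hv.w_nonneg hy fun _ _ k _ _ hs => h.SP_up L.conv hb hs k.le

theorem Fld.SM_nonpos (hv : L.Fld v) (h : Zc A z) (hy : y ∈ L.U) (hb : b ∈ A) :
    fderiv ℝ (L.w (SM A z b)) y (v y) ≤ 0 := by
  have := hv.dual.SP_nonneg h.dual hy hb
  rwa [Pi.neg_apply, map_neg, neg_nonneg] at this

theorem Fld.uu_nonneg (hv : L.Fld v) (h : Zc A z) (ha : a < 1 / 2) (hy : y ∈ L.U) (hb : b ∈ A) :
    0 ≤ fderiv ℝ (L.uu z a b) y (v y) := by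
  rw [fderiv_uu hy, sub_nonneg]
  exact (mul_nonpos_of_nonneg_of_nonpos (monotone_tau ha).deriv_nonneg (hv.SM_nonpos h hy hb)).trans
    (mul_nonneg (monotone_tau ha).deriv_nonneg (hv.SP_nonneg h hy hb))

/-- the lowest big vertex of `A` -/
theorem exists_low (h : Zc A z) (hy : y ∈ L.U) :
    ∃ b ∈ A, L.Big y b ∧ L.w (SM A z b) y ≤ L.m y + 2 * (Fintype.card P * δ) := by
  obtain ⟨b, hb, hm⟩ := (toFinite {b | b ∈ A ∧ L.Big y b}).exists_minimal (exists_bigA hy)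
  refine ⟨b, hb.1, hb.2, (wS_union_le (L.nonneg y hy) _ _).trans (add_le_add le_rfl ?_)⟩
  rw [mul_left_comm]
  refine wS_le_card (by linarith [L.δ0]) fun q hq => not_lt.1 fun n => hq.2.2.ne' ?_
  obtain rfl : q = b := le_antisymm hq.2.1 (hm ⟨hq.1, n⟩ hq.2.1)
  exact h.self hq.1

theorem phi_low (h : Zc A z) (ha : a < 1 / 2) (hy : y ∈ L.U) (hp : L.p y ≤ a)
    (hm : L.m y + 2 * (Fintype.card P * δ) ≤ a) : ∃ b ∈ A, L.Big y b ∧ L.w (SM A z b) y ≤ a ∧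
      (L.phi z a y = 1 ↔ L.w (SP A z b) y ≤ a ∨ 1 - a ≤ L.w (SP A z b) y) := by
  obtain ⟨b, hb, g, k⟩ := exists_low h hy
  have c0 : (0 : ℝ) ≤ Fintype.card P * δ := mul_nonneg (Nat.cast_nonneg _) L.δ0.le
  refine ⟨b, hb, g, k.trans hm, ?_⟩
  rw [phi_eq h ha hy hp (by linarith) hb (g.le hy), uu, (tau_zero_iff ha).2 (k.trans hm), sub_zero,
    ← tau_zero_iff ha, ← tau_one_iff ha, Circle.exp_eq_one]
  have h0 := tau_nonneg a (L.w (SP A z b) y)
  have h1 := tau_le_one a (L.w (SP A z b) y)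
  refine ⟨fun ⟨n, hn⟩ => ?_, fun k => k.elim (fun k => ⟨0, by simp [k]⟩) fun k => ⟨1, by simp [k]⟩⟩
  have e : tau a (L.w (SP A z b) y) = n := mul_left_cancel₀ Real.two_pi_pos.ne' (by linarith)
  rw [e] at h0 h1 ⊢
  have h0' : 0 ≤ n := by exact_mod_cast h0
  have h1' : n ≤ 1 := by exact_mod_cast h1
  obtain rfl | rfl : n = 0 ∨ n = 1 := by omega
  · simp
  · simp

/-- strict growth off the plateau -/
theorem Fld.uu_pos (hv : L.Fld v) (h : Zc A z) (ha : a < 1 / 2) (hy : y ∈ L.U) (hp : L.p y ≤ a)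
    (hm : L.m y + 2 * (Fintype.card P * δ) ≤ a) (h1 : L.phi z a y ≠ 1) :
    ∃ b ∈ A, L.Big y b ∧ 0 < fderiv ℝ (L.uu z a b) y (v y) := by
  obtain ⟨b, hb, g, -, k⟩ := phi_low h ha hy hp hm
  rw [Ne, k, not_or, not_le, not_le] at h1
  have h2 : 0 ≤ L.m y := LC.w_nonneg hy _
  refine ⟨b, hb, g, ?_⟩
  rw [fderiv_uu hy, sub_pos]
  exact (mul_nonpos_of_nonneg_of_nonpos (monotone_tau ha).deriv_nonneg (hv.SM_nonpos h hy hb)).trans_lt
    (mul_pos (deriv_tau_pos h1.1 h1.2) (hv.w_pos hy (fun _ _ k _ _ hs => h.SP_up L.conv hb hs k.le)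
      (by linarith [h1.1]) (by linarith [h1.2])))

end LC

theorem Cv.op_iff (hc : Cv A B z pr) (h : Zc A z) (hA : A.OrdConnected) (hB : B.OrdConnected)
    {b q : Q} (hb : b ∈ B) (k : Cm b q) : q ∈ Op B ↔ pr q ∈ SP A z (pr b) := by
  have hb' := hc.bij.mapsTo hb
  refine ⟨fun n => ?_, fun n => n.elim (hc.op hA hb k) fun ⟨h1, h2, h3⟩ => ?_⟩
  · have l := (op_lt hB hb n k).le
    have l' := hc.mono.monotone l
    by_cases e : pr q ∈ A
    · exact .inr ⟨e, l', (h.nn _ hb' _ e l').lt_of_ne' fun e' => n.1 ((hc.up b hb q l).2 ⟨e, e'⟩)⟩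
    · exact .inl ⟨e, _, hb', l'⟩
  · have l := hc.refl b hb b q Cm.rfl k h2
    exact ⟨fun n => h3.ne' ((hc.up b hb q l).1 n).2, b, hb, l⟩

namespace Rel

variable (hr : Rel L L' pr) (hc : Cv A B z pr) (h : Zc A z)
include hr hc h

theorem p_eq (hy : y ∈ L'.U) {b : Q} (hb : b ∈ B) (g : δ ≤ L'.lam y b) :
    L'.p y = L.w (SP A z (pr b)) y :=
  hr.w_eq hc.toLft hy hb g fun _ k => hc.op_iff h L.conv L'.conv hb k

theorem m_eq (hy : y ∈ L'.U) {b : Q} (hb : b ∈ B) (g : δ ≤ L'.lam y b) :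
    L'.m y = L.w (SM A z (pr b)) y := hr.dual.p_eq hc.dual h.dual hy hb g

theorem mem (ha : a < 1 / 8) (hy : y ∈ L.U) (hb : b ∈ A) (g : L.Big y b) (h1 : L.w (SP A z b) y ≤ a)
    (h2 : L.w (SM A z b) y ≤ a) : y ∈ L'.U ∧ L'.p y ≤ a ∧ L'.m y ≤ a := by
  obtain ⟨c, hc', rfl⟩ := hc.bij.surjOn hb
  have : L.w (cls B pr c)ᶜ y ≤ L.w (SP A z (pr c)) y + L.w (SM A z (pr c)) y := by
    refine (wS_mono (L.nonneg y hy) fun x hx n => ?_).trans (wS_union_le (L.nonneg y hy) _ _)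
    obtain ⟨q, hq, rfl⟩ := (hc.star c hc').surjOn (LC.cm_mu hy (g.le hy) x hx)
    have n' : q ∉ B := fun k => n ((hc.mem_cls hc' hq).2 k)
    exact hq.imp (fun k => (hc.op_iff h L.conv L'.conv hc' hq).1 ⟨n', c, hc', k⟩) fun k =>
      (hc.dual.op_iff h.dual L.conv.dual L'.conv.dual hc' hq.symm).1 ⟨n', c, hc', k⟩
  obtain ⟨k1, k2⟩ := hr.good y hy c hc' g (by linarith [LC.w_compl hy (cls B pr c)])
  exact ⟨k1, hr.p_eq hc h k1 hc' (k2.le k1) ▸ h1, hr.m_eq hc h k1 hc' (k2.le k1) ▸ h2⟩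

/-- **the new plateau** -/
theorem phi_one (ha : a < 1 / 8) (hy : y ∈ L.U) (hp : L.p y ≤ a)
    (hm : L.m y + 2 * (Fintype.card P * δ) ≤ a) :
    L.phi z a y = 1 ↔ y ∈ L'.U ∧ L'.p y ≤ a ∧ L'.m y ≤ a := by
  have ha' : a < 1 / 2 := by linarith
  have c0 : (0 : ℝ) ≤ Fintype.card P * δ := mul_nonneg (Nat.cast_nonneg _) L.δ0.le
  constructor
  · obtain ⟨b, hb, g, k1, k2⟩ := LC.phi_low h ha' hy hp hm
    rw [k2]
    rintro (k | k)
    · exact hr.mem hc h ha hy hb g k k1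
    · obtain ⟨b', hb', g'⟩ := LC.exists_big (L := L) (y := y) (S := {q | q ∈ A ∧ b ≤ q ∧ 0 < z b q}) (by
        have h1 : L.w (SP A z b) y ≤ L.p y + L.w _ y := wS_union_le (L.nonneg y hy) _ _
        linarith [L.small])
      refine hr.mem hc h ha hy hb'.1 g' ?_ ?_
      · rw [h.SP_top hb hb'.1 hb'.2.1 hb'.2.2]; exact hp
      · rw [LC.w_SM_up h hy hb hb'.1 (g.le hy) (g'.le hy) hb'.2.1 hb'.2.2]; linarith
  · rintro ⟨k1, k2, k3⟩
    obtain ⟨b, hb, g⟩ := LC.exists_bigA k1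
    rw [LC.phi_eq h ha' hy hp (by linarith) (hc.bij.mapsTo hb) (hr.le k1 (g.le k1)), LC.uu,
      ← hr.p_eq hc h k1 hb (g.le k1), ← hr.m_eq hc h k1 hb (g.le k1), (tau_zero_iff ha').2 k2,
      (tau_zero_iff ha').2 k3]
    simp

end Rel

end Crest.Agent.X212.Mol27
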