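import Crest.Agent.X212.Mol27.Phi
import Crest.Agent.X212.Cut21.Cov

/-!
# X212 / Mol27 (helper27): walking to the suture below a sheet (combinatorics)
-/

set_option autoImplicit false
set_option linter.unusedSectionVars false

open Set Classical
open Crest.Agent.X212.Hp13 Crest.Agent.X212.Alg36 Crest.Agent.X212.Cut21

noncomputable section

namespace Crest.Agent.X212.Mol27

variable {P : Type} [PartialOrder P] [Fintype P] {A : Set P} {z : P → P → ℤ} {b o : P}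
  {lo hi lo' hi' k : ℤ}

/-- the pair `b ≤ o` at level `k` reaches the suture through levels in `[lo, hi]` -/
inductive Rc (A : Set P) (z : P → P → ℤ) (lo hi : ℤ) : P → P → ℤ → Prop
  | sut {x b o : P} {k : ℤ} : x ∉ A → x ≤ b → lo ≤ k → k ≤ hi → Rc A z lo hi b o k
  | up {b c o : P} {k : ℤ} : c ∈ A → b ≤ c → c ≤ o → lo ≤ k → k ≤ hi →
      Rc A z lo hi c o (k + z b c) → Rc A z lo hi b o k
  | dn {b c o : P} {k : ℤ} : c ∈ A → c ≤ b → lo ≤ k → k ≤ hi →
      Rc A z lo hi c o (k - z c b) → Rc A z lo hi b o k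
  | mv {b o p : P} {k : ℤ} : p ∉ A → b ≤ p → Cm o p → Rc A z lo hi b p k → Rc A z lo hi b o k

theorem Rc.mem (h : Rc A z lo hi b o k) : lo ≤ k ∧ k ≤ hi := by
  induction h with
  | sut _ _ h1 h2 => exact ⟨h1, h2⟩
  | up _ _ _ h1 h2 => exact ⟨h1, h2⟩
  | dn _ _ h1 h2 => exact ⟨h1, h2⟩
  | mv _ _ _ _ ih => exact ih

theorem Rc.mono (h : Rc A z lo hi b o k) (h1 : lo' ≤ lo) (h2 : hi ≤ hi') : Rc A z lo' hi' b o k := by
  induction h with
  | sut a1 a2 a3 a4 => exact .sut a1 a2 (h1.trans a3) (a4.trans h2)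
  | up a1 a2 a3 a4 a5 _ ih => exact .up a1 a2 a3 (h1.trans a4) (a5.trans h2) ih
  | dn a1 a2 a4 a5 _ ih => exact .dn a1 a2 (h1.trans a4) (a5.trans h2) ih
  | mv a1 a2 a3 _ ih => exact .mv a1 a2 a3 ih

theorem rc_of_pp0 (hz : Zc A z) (h : PP A 0 b o) (hb : b ∈ A) :
    ∃ n : ℕ, ∀ k, Rc A z (k - n) (k + n) b o k := by
  induction h with
  | sut a1 a2 => exact ⟨0, fun k => .sut a1 a2 (by simp) (by simp)⟩
  | low _ _ a3 => exact absurd a3 (lt_irrefl _)
  | up a1 a2 a3 _ _ ih =>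
    obtain ⟨n, hn⟩ := ih a1
    have := hz.nn _ hb _ a1 a2
    have := hz.le _ hb _ a1 a2
    exact ⟨n + 1, fun k => .up a1 a2 a3 (by omega) (by omega) ((hn _).mono (by omega) (by omega))⟩
  | dn a1 a2 _ _ ih =>
    obtain ⟨n, hn⟩ := ih a1
    have := hz.nn _ a1 _ hb a2
    have := hz.le _ a1 _ hb a2
    exact ⟨n + 1, fun k => .dn a1 a2 (by omega) (by omega) ((hn _).mono (by omega) (by omega))⟩
  | mv a1 a2 a3 _ ih => exact (ih hb).imp fun n hn k => .mv a1 a2 a3 (hn k)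

/-- every pair reaches the suture without rising -/
def Rch0 (A : Set P) (z : P → P → ℤ) (n : ℕ) : Prop :=
  ∀ b ∈ A, ∀ o ∉ A, b ≤ o → ∀ k, Rc A z (k - n) k b o k

theorem exists_rch0 (hz : Zc A z) (h0 : CondP A 0) (h1 : CondP A z) : ∃ n, Rch0 A z n := by
  choose! n hn using fun (p : P × P) (h : p.1 ∈ A ∧ p.2 ∉ A ∧ p.1 ≤ p.2) =>
    rc_of_pp0 hz (h0 _ h.1 _ h.2.1 h.2.2) h.1
  obtain ⟨N, hN⟩ := Finite.exists_le n
  have key : ∀ j : ℕ, j ≤ N → ∀ b ∈ A, ∀ o ∉ A, b ≤ o → ∀ k,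
      Rc A z (k - N - j) (k + N - j) b o k := by
    intro j
    induction j with
    | zero =>
      intro _ b hb o ho h k
      have := hN (b, o)
      exact (hn (b, o) ⟨hb, ho, h⟩ k).mono (by omega) (by omega)
    | succ j ih =>
      intro hj b hb o ho h k
      have hp := h1 b hb o ho h
      induction hp with
      | sut a1 a2 => exact .sut a1 a2 (by omega) (by omega)
      | low a1 a2 a3 =>
        have := hz.le _ a1 _ hb a2
        exact .dn a1 a2 (by omega) (by omega)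
          ((ih (by omega) _ a1 _ ho (a2.trans h) _).mono (by omega) (by omega))
      | up a1 a2 a3 a4 _ ih' =>
        exact .up a1 a2 a3 (by omega) (by omega) (by simpa [a4] using ih' a1 ho a3)
      | dn a1 a2 a4 _ ih' =>
        exact .dn a1 a2 (by omega) (by omega) (by simpa [a4] using ih' a1 ho (a2.trans h))
      | mv a1 a2 a3 _ ih' => exact .mv a1 a2 a3 (ih' hb a1 a2)
  exact ⟨2 * N, fun b hb o ho h k => (key N le_rfl b hb o ho h k).mono (by omega) (by omega)⟩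

theorem condM_dual (h : CondM A z) : CondP (P := Pᵒᵈ) A fun x y => z y x := fun a ha o ho k => by
  have := h a ha o ho k
  clear ha ho k
  induction this with
  | sut a1 a2 => exact .sut a1 a2
  | hi a1 a2 a3 => exact .low a1 a2 a3
  | dn a1 a2 a3 a4 _ ih => exact .up a1 a2 a3 a4 ih
  | up a1 a2 a3 _ ih => exact .dn a1 a2 a3 ih
  | mv a1 a2 a3 _ ih => exact .mv a1 a2 (Or.symm a3) ih

theorem cb_ind_pos {S : Set P} {x y : P} (h : 0 < cb (ind S) x y) : x ∉ S ∧ y ∈ S := by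
  unfold cb ind at h
  split_ifs at h <;> simp_all

/-- no closed component of `R₊` -/
theorem condP_zero (hA : A.OrdConnected) (h : NC A (Rp A)) : CondP A 0 := fun a ha o ho k => by
  refine h.ind coc_Rp (mono_Rp hA) (G := fun x y _ => x ∈ A → PP A 0 x y) (k := 0)
    (fun _ _ _ _ hx _ _ _ n => absurd n hx) (fun x y w k t h0 h1 => ?_) (fun x y w k t h0 h1 => ?_)
    (Dp.of_left ha k) le_rfl ?_ ha
  · have hy := (cb_ind_pos (h0.trans_lt h1)).2
    have hw := op_of_le hA hy t.2.1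
    exact ⟨fun g hx => .mv hy.1 t.1 (.inr t.2.1) (g hx),
      fun g hx => .mv hw.1 (t.1.trans t.2.1) (.inl t.2.1) (g hx)⟩
  · have hy := (cb_ind_pos (h0.trans_lt h1)).1
    refine ⟨fun g hx => ?_, fun g hy' => ?_⟩
    · have : y ∈ A := by_contra fun n => hy ⟨n, x, hx, t.1⟩
      exact .up this t.1 t.2.1 rfl (g this)
    · by_cases hx : x ∈ A
      exacts [.dn hx t.1 rfl (g hx), .sut hx t.1]
  · rw [Rp, cb, ind_of_mem (E := {x | x ∉ A ∧ ∃ a ∈ A, a ≤ x}) ⟨ho, a, ha, k⟩,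
      ind_of_not (E := {x | x ∉ A ∧ ∃ a ∈ A, a ≤ x}) fun n => n.1 ha]
    norm_num

/-- no closed component of `R₋` -/
theorem condM_zero (hA : A.OrdConnected) (h : NC A (Rm A)) : CondM A 0 := fun a ha o ho k => by
  refine h.ind coc_Rm mono_Rm (G := fun x y _ => y ∈ A → PM A 0 y x) (k := 0)
    (fun _ _ _ _ _ hy _ _ n => absurd n hy) (fun x y w k t h0 h1 => ?_) (fun x y w k t h0 h1 => ?_)
    (Dp.of_right ha k) le_rfl ?_ ha
  · obtain ⟨-, c, hc, hy⟩ := cb_ind_pos (h0.trans_lt h1)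
    refine ⟨fun g hw => ?_, fun g hy' => ?_⟩
    · have : y ∈ A := hA.out hc hw ⟨hy, t.2.1⟩
      exact .dn this t.2.1 t.1 rfl (g this)
    · by_cases hw : w ∈ A
      exacts [.up hw t.2.1 rfl (g hw), .sut hw t.2.1]
  · have hy := (cb_ind_pos (h0.trans_lt h1)).1
    exact ⟨fun g hw => .mv (fun n => hy ⟨y, n, le_rfl⟩) t.2.1 (.inl t.1) (g hw),
      fun g hw => .mv (fun n => hy ⟨x, n, t.1⟩) (t.1.trans t.2.1) (.inr t.1) (g hw)⟩
  · rw [Rm, cb, ind_of_mem (E := {x | ∃ a ∈ A, a ≤ x}) ⟨a, ha, le_rfl⟩,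
      ind_of_not (E := {x | ∃ a ∈ A, a ≤ x}) fun ⟨c, hc, n⟩ => ho (hA.out hc ha ⟨n, k⟩)]
    norm_num

/-- the combinatorial input of one stage -/
structure Cnd (A : Set P) (z : P → P → ℤ) : Prop where
  zc : Zc A z
  up : ∃ n, Rch0 A z n
  dn : ∃ n, Rch0 (P := Pᵒᵈ) A (fun x y => z y x) n

theorem cnd_of {s : St} {z : s.P → s.P → ℤ} (hs : Taut s) (h : Ind26.Adm s z) : Cnd s.A z :=
  have hz := zc_of h.sf.coc h.sf.mono h.spr
  ⟨hz, exists_rch0 hz (condP_zero hs.conv hs.sfp.nc) (condP_iff.2 h.cu),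
    exists_rch0 hz.dual (condM_dual (condM_zero hs.conv hs.sfm.nc)) (condM_dual (condM_iff.2 h.cd))⟩

theorem cnd_zero {s : St} (hs : Taut s) : Cnd s.A 0 :=
  ⟨zc_zero _, exists_rch0 (zc_zero _) (condP_zero hs.conv hs.sfp.nc) (condP_zero hs.conv hs.sfp.nc),
    exists_rch0 (zc_zero _) (condM_dual (condM_zero hs.conv hs.sfm.nc))
      (condM_dual (condM_zero hs.conv hs.sfm.nc))⟩

end Crest.Agent.X212.Mol27
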